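import Crest.Agent.H0291.BernGap
import Crest.Prelude.Def_Cost

set_option autoImplicit false
set_option linter.unusedSectionVars false
open MeasureTheory Set
open scoped ENNReal

namespace Crest.Agent.H0291

variable {G : Type} [Group G] [Countable G]

/-- Left multiplication by `g⁻¹` on the first coordinate. -/
def shE (g : G) : G × ℕ ≃ G × ℕ := Equiv.prodCongr (Equiv.mulLeft g⁻¹) (Equiv.refl ℕ)

/-- The free part of the Bernoulli shift. -/
def freeSet (G : Type) [Group G] : Set (G × ℕ → ZMod 2) := {ω | ∀ g : G, ω ∘ shE g = ω → g = 1}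

theorem shE_mul (g h : G) (ω : G × ℕ → ZMod 2) : ω ∘ shE (g * h) = (ω ∘ shE h) ∘ shE g := by
  ext ⟨a, n⟩; simp [shE, mul_assoc]

theorem shE_one (ω : G × ℕ → ZMod 2) : ω ∘ shE (1 : G) = ω := by
  ext ⟨a, n⟩; simp [shE]

theorem meas_fix (g : G) : MeasurableSet {ω : G × ℕ → ZMod 2 | ω ∘ shE g = ω} :=
  measurableSet_eq_fun (mp_comp _).measurable measurable_id

theorem meas_freeSet : MeasurableSet (freeSet G) :=
  Measurable.setOf (Measurable.forall fun g => Measurable.imp (meas_fix g).mem measurable_const)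

theorem fix_null {g : G} (hg : g ≠ 1) : haarP (G × ℕ) {ω | ω ∘ shE g = ω} = 0 := by
  classical
  let S : ℕ → Set (G × ℕ → ZMod 2) := fun n =>
    (fun ω => ω + Pi.single (1, n) 1) ⁻¹' {ω | ω ∘ shE g = ω}
  have hS : ∀ n, haarP (G × ℕ) (S n) = haarP (G × ℕ) {ω | ω ∘ shE g = ω} := fun n =>
    measure_preimage_add_right _ _ _
  have hd : Pairwise (Function.onFun Disjoint S) := by
    intro n m hnm
    rw [Function.onFun, disjoint_left]
    intro ω h1 h2
    have a := congrFun (show _ = _ from h1) (g, n)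
    have b := congrFun (show _ = _ from h2) (g, n)
    simp [shE, hg, hnm] at a b
    rw [b] at a
    simp at a
  have := measure_iUnion (μ := haarP (G × ℕ)) hd fun n => (meas_fix g).preimage (by fun_prop)
  simp only [hS] at this
  by_contra h
  rw [ENNReal.tsum_const_eq_top_of_ne_zero h] at this
  exact measure_ne_top _ _ this

theorem freeSet_conull : haarP (G × ℕ) (freeSet G)ᶜ = 0 := by
  refine measure_mono_null (t := ⋃ g : {g : G // g ≠ 1}, {ω | ω ∘ shE g.1 = ω}) ?_
    (measure_iUnion_null fun g => fix_null g.2)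
  intro ω h
  simp only [freeSet, mem_compl_iff, mem_ofPred_eq, not_forall] at h
  obtain ⟨g, h1, h2⟩ := h
  exact mem_iUnion.mpr ⟨⟨g, h2⟩, h1⟩

instance bernAct : MulAction G (freeSet G) where
  smul g ω := ⟨ω.1 ∘ shE g, fun h hh => by
    have := ω.2 (g⁻¹ * h * g) (by rw [shE_mul, shE_mul, hh, ← shE_mul, inv_mul_cancel, shE_one])
    calc h = g * (g⁻¹ * h * g) * g⁻¹ := by group
      _ = 1 := by rw [this]; group⟩
  one_smul ω := Subtype.ext (shE_one _)
  mul_smul g h ω := Subtype.ext (shE_mul _ _ _)

theorem bern_val (g : G) (ω : freeSet G) : (g • ω).1 = ω.1 ∘ shE g := rfl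

/-- The Bernoulli measure on the free part. -/
noncomputable def bernM (G : Type) [Group G] [Countable G] : Measure (freeSet G) :=
  (haarP (G × ℕ)).comap Subtype.val

theorem bernM_apply (T : Set (freeSet G)) : bernM G T = haarP (G × ℕ) (Subtype.val '' T) :=
  comap_subtype_coe_apply meas_freeSet _ _

theorem val_preimage (g : G) (T : Set (freeSet G)) :
    Subtype.val '' ((fun x => g • x) ⁻¹' T) = (fun ω => ω ∘ shE g) ⁻¹' (Subtype.val '' T) := by
  ext ω
  constructor
  · rintro ⟨x, hx, rfl⟩
    exact ⟨_, hx, rfl⟩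
  · rintro ⟨x, hx, h⟩
    refine ⟨g⁻¹ • x, by simpa using hx, ?_⟩
    rw [bern_val, h, ← shE_mul, inv_mul_cancel, shE_one]

instance : IsProbabilityMeasure (bernM G) := ⟨by
  rw [bernM_apply, image_univ, Subtype.range_coe]
  exact (prob_compl_eq_zero_iff meas_freeSet).mp freeSet_conull⟩

theorem meas_bern (g : G) : Measurable fun x : freeSet G => g • x :=
  Measurable.subtype_mk ((mp_comp _).measurable.comp measurable_subtype_coe)

instance : SMulInvariantMeasure G (freeSet G) (bernM G) := ⟨fun g T hT => by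
  rw [bernM_apply, bernM_apply, val_preimage, (mp_comp _).measure_preimage
    (meas_freeSet.subtype_image hT).nullMeasurableSet]⟩

instance : IsCancelSMul G (freeSet G) where
  right_cancel' g h x e := by
    have := x.2 (h⁻¹ * g) (by
      rw [← bern_val, mul_smul, e, inv_smul_smul])
    exact (inv_mul_eq_one.mp this).symm

instance : StandardBorelSpace (freeSet G) := meas_freeSet.standardBorel

theorem bern_gap (θ : G →* FreeGroup (Fin 2)) {u1 u2 : G} (h1 : θ u1 = FreeGroup.of 0)
    (h2 : θ u2 = FreeGroup.of 1) (T : Set (freeSet G)) (hT : MeasurableSet T)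
    (a1 : 1 / 4 ≤ bernM G T) (a2 : bernM G T ≤ 1 / 2) :
    (1 / 100 : ℝ≥0∞) ≤ bernM G (T \ (fun x => u1 • x) ⁻¹' T) +
      bernM G (T \ (fun x => u2 • x) ⁻¹' T) := by
  classical
  let φ : Fin 2 × Bool → G × ℕ → ℝ := fun w p => if θ p.1 ∈ FreeGroup.startsWith w then 1 else 0
  have p0 : ∀ w i, 0 ≤ φ w i := fun w i => by simp only [φ]; split_ifs <;> norm_num
  have hh : ∀ (j : Fin 2) (u : G), θ u = FreeGroup.of j → ∀ i, 1 ≤ φ (j, true) i +
      φ (j, false) (shE u i) := by
    intro j u hu i
    by_cases h : θ i.1 ∈ FreeGroup.startsWith (j, true)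
    · have := p0 (j, false) (shE u i)
      simp only [φ, if_pos h] at this ⊢
      linarith
    · have := FreeGroup.startsWith_mk_mul (w := (j, false)) _ h
      have e : θ (shE u i).1 = FreeGroup.mk [(j, false)] * θ i.1 := by
        simp only [shE, Equiv.prodCongr_apply, Prod.map_fst, Equiv.coe_mulLeft, map_mul, map_inv, hu]
        rfl
      simp only [φ, if_neg h, e, if_pos this]
      norm_num
  have key := gap_haar (φ1 := φ (0, true)) (φ1' := φ (0, false)) (φ2 := φ (1, true))
    (φ2' := φ (1, false)) (shE u1) (shE u2) (p0 _) (p0 _) (p0 _) (p0 _)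
    (by
      intro i
      simp only [φ, FreeGroup.startsWith, mem_ofPred_eq]
      split_ifs <;> simp_all)
    (hh 0 u1 h1) (hh 1 u2 h2) (meas_freeSet.subtype_image hT)
    (by
      rw [bernM_apply] at a1
      simpa [Measure.real] using ENNReal.toReal_mono (measure_ne_top _ _) a1)
    (by
      rw [bernM_apply] at a2
      simpa [Measure.real] using ENNReal.toReal_mono (by simp) a2)
  rw [bernM_apply, bernM_apply, image_sdiff Subtype.val_injective,
    image_sdiff Subtype.val_injective, val_preimage, val_preimage,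
    ← ENNReal.toReal_le_toReal (by simp) (by simp),
    ENNReal.toReal_add (measure_ne_top _ _) (measure_ne_top _ _)]
  simpa [Measure.real] using key

theorem bern_free : Crest.Dynamics.IsFreePMPAction G (freeSet G) (bernM G) := by
  refine ⟨fun g => ⟨meas_bern g, ?_⟩, fun g hg => ?_⟩
  · ext T hT
    rw [Measure.map_apply (meas_bern g) hT]
    exact SMulInvariantMeasure.measure_preimage_smul g hT
  · have : {x : freeSet G | g • x = x} = ∅ := by
      rw [eq_empty_iff_forall_notMem]
      intro x hx
      exact hg (x.2 g (congrArg Subtype.val hx))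
    rw [this, measure_empty]

instance [MeasurableSpace G] [DiscreteMeasurableSpace G] : MeasurableSMul₂ G (freeSet G) :=
  ⟨measurable_from_prod_countable_right fun g => meas_bern g⟩

/-- Export form. -/
theorem exists_bern (θ : G →* FreeGroup (Fin 2)) {u1 u2 : G} (h1 : θ u1 = FreeGroup.of 0)
    (h2 : θ u2 = FreeGroup.of 1) [MeasurableSpace G] [DiscreteMeasurableSpace G] :
    ∃ (X : Type) (_ : MeasurableSpace X) (_ : StandardBorelSpace X) (μ : Measure X)
      (_ : IsProbabilityMeasure μ) (_ : MulAction G X) (_ : MeasurableSMul₂ G X)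
      (_ : IsCancelSMul G X) (_ : SMulInvariantMeasure G X μ),
      Crest.Dynamics.IsFreePMPAction G X μ ∧
      ∀ T, MeasurableSet T → 1 / 4 ≤ μ T → μ T ≤ 1 / 2 → (1 / 100 : ℝ≥0∞) ≤
        μ (T \ (fun x => u1 • x) ⁻¹' T) + μ (T \ (fun x => u2 • x) ⁻¹' T) :=
  ⟨freeSet G, inferInstance, inferInstance, bernM G, inferInstance, inferInstance, inferInstance,
    inferInstance, inferInstance, bern_free, bern_gap θ h1 h2⟩

end Crest.Agent.H0291
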