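import Mathlib

set_option autoImplicit false
set_option linter.unusedSectionVars false
open MeasureTheory Set
open scoped ENNReal symmDiff

namespace Crest.Agent.H0291

variable {I : Type} [Countable I]

/-- Haar probability measure on `I → ZMod 2`. -/
noncomputable def haarP (I : Type) [Countable I] : Measure (I → ZMod 2) :=
  Measure.addHaarMeasure ⊤

instance : IsProbabilityMeasure (haarP I) :=
  ⟨by simpa [haarP] using Measure.addHaarMeasure_self (G := I → ZMod 2) (K₀ := ⊤)⟩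

instance : (haarP I).IsAddHaarMeasure := by unfold haarP; infer_instance

theorem mp_comp (e : I ≃ I) :
    MeasurePreserving (fun ω : I → ZMod 2 => ω ∘ e) (haarP I) (haarP I) := by
  let f : (I → ZMod 2) →+ (I → ZMod 2) := AddMonoidHom.mk' (fun ω => ω ∘ e) fun _ _ => rfl
  refine f.measurePreserving (by fun_prop : Continuous fun ω : I → ZMod 2 => fun i => ω (e i))
    (fun ω => ⟨ω ∘ e.symm, ?_⟩) (by simp)
  ext i; simp [f]

def sg (a : ZMod 2) : ℝ := if a = 0 then 1 else -1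

theorem sg_add (a b : ZMod 2) : sg (a + b) = sg a * sg b := by
  revert a b
  have : ∀ a : ZMod 2, a = 0 ∨ a = 1 := by decide
  intro a b
  rcases this a with rfl | rfl <;> rcases this b with rfl | rfl <;>
    simp [sg, show (1 : ZMod 2) + 1 = 0 from rfl]

/-- Walsh functions. -/
noncomputable def chi (s : I →₀ ZMod 2) (ω : I → ZMod 2) : ℝ :=
  sg (Finsupp.linearCombination (ZMod 2) ω s)

theorem chi_mul (s s' : I →₀ ZMod 2) : chi s * chi s' = chi (s + s') := by
  ext ω; simp [chi, sg_add]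

theorem chi_zero : chi (0 : I →₀ ZMod 2) = 1 := by ext ω; simp [chi, sg]

theorem meas_chi (s : I →₀ ZMod 2) : Measurable (chi s) := by
  refine (Measurable.of_discrete (f := sg)).comp ?_
  simp only [Finsupp.linearCombination_apply, Finsupp.sum, smul_eq_mul]
  exact Finset.measurable_sum _ fun i _ =>
    (Measurable.of_discrete (f := fun a => s i * a)).comp (measurable_pi_apply i)

theorem int_chi (s : I →₀ ZMod 2) : Integrable (chi s) (haarP I) := by
  refine Integrable.of_bound (meas_chi s).aestronglyMeasurable 1 (ae_of_all _ fun ω => ?_)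
  unfold chi sg
  split_ifs <;> simp

open Classical in
theorem integral_chi (s : I →₀ ZMod 2) : ∫ ω, chi s ω ∂(haarP I) = if s = 0 then 1 else 0 := by
  split_ifs with h
  · simp [h, chi_zero]
  · obtain ⟨i, hi⟩ := Finsupp.ne_iff.mp h
    have h1 : s i = 1 := by
      have : ∀ a : ZMod 2, a ≠ 0 → a = 1 := by decide
      exact this _ hi
    have h2 : ∀ ω, chi s (ω + Pi.single i 1) = - chi s ω := by
      intro ω
      have : Finsupp.linearCombination (ZMod 2) (ω + Pi.single i 1) s =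
          Finsupp.linearCombination (ZMod 2) ω s + 1 := by
        simp only [Finsupp.linearCombination_apply, Finsupp.sum, smul_eq_mul, Pi.add_apply, mul_add,
          Finset.sum_add_distrib]
        congr 1
        rw [Finset.sum_eq_single i] <;> simp +contextual [h1]
      rw [chi, this, sg_add, chi]
      simp [sg]
    have := integral_add_right_eq_self (μ := haarP I) (chi s) (Pi.single i 1)
    simp only [h2, integral_neg] at this
    linarith

/-- Walsh polynomials. -/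
noncomputable def wp (c : (I →₀ ZMod 2) →₀ ℝ) : (I → ZMod 2) → ℝ :=
  Finsupp.linearCombination ℝ chi c

/-- Weighted squared norm. -/
noncomputable def Qf (p : (I →₀ ZMod 2) → ℝ) (c : (I →₀ ZMod 2) →₀ ℝ) : ℝ :=
  c.sum fun s a => a ^ 2 * p s

theorem integral_wp (c : (I →₀ ZMod 2) →₀ ℝ) : ∫ ω, wp c ω ∂(haarP I) = c 0 := by
  classical
  simp only [wp, Finsupp.linearCombination_apply, Finsupp.sum, Finset.sum_apply, Pi.smul_apply,
    smul_eq_mul]
  rw [integral_finsetSum _ fun s _ => (int_chi s).const_mul _]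
  simp only [integral_const_mul, integral_chi]
  rw [Finset.sum_eq_single 0] <;> simp +contextual

theorem parseval (c : (I →₀ ZMod 2) →₀ ℝ) : ∫ ω, wp c ω ^ 2 ∂(haarP I) = Qf 1 c := by
  classical
  simp only [wp, Finsupp.linearCombination_apply, Finsupp.sum, Finset.sum_apply, Pi.smul_apply,
    smul_eq_mul, sq, Finset.sum_mul_sum, Qf]
  have : ∀ s s' ω, c s * chi s ω * (c s' * chi s' ω) = c s * c s' * chi (s + s') ω := by
    intro s s' ω
    rw [← chi_mul, Pi.mul_apply]; ring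
  simp only [this]
  rw [integral_finsetSum _ fun s _ => integrable_finsetSum _ fun s' _ => (int_chi _).const_mul _]
  refine Finset.sum_congr rfl fun s hs => ?_
  rw [integral_finsetSum _ fun s' _ => (int_chi _).const_mul _]
  simp only [integral_const_mul, integral_chi]
  have h2 : ∀ s' : I →₀ ZMod 2, s + s' = 0 ↔ s' = s := by
    intro s'
    rw [Finsupp.ext_iff, Finsupp.ext_iff]
    refine forall_congr' fun i => ?_
    have : ∀ a b : ZMod 2, a + b = 0 ↔ b = a := by decide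
    exact this _ _
  rw [Finset.sum_eq_single s] <;> simp +contextual [h2, hs]

theorem wp_comp (c : (I →₀ ZMod 2) →₀ ℝ) (e : I ≃ I) (ω : I → ZMod 2) :
    wp c (ω ∘ e) = wp (c.mapDomain (Finsupp.mapDomain e)) ω := by
  rw [wp, wp, Finsupp.linearCombination_mapDomain]
  simp only [Finsupp.linearCombination_apply ℝ, Finsupp.sum, Finset.sum_apply, Pi.smul_apply,
    Function.comp, chi, Finsupp.linearCombination_mapDomain]

theorem Qf_map (p : (I →₀ ZMod 2) → ℝ) (c : (I →₀ ZMod 2) →₀ ℝ) (e : I ≃ I) :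
    Qf p (c.mapDomain (Finsupp.mapDomain e)) = Qf (p ∘ Finsupp.mapDomain e) c :=
  Finsupp.sum_mapDomain_index_inj (Finsupp.mapDomain_injective e.injective)

theorem Qf_eq (p : (I →₀ ZMod 2) → ℝ) (c : (I →₀ ZMod 2) →₀ ℝ) {S : Finset (I →₀ ZMod 2)}
    (h : c.support ⊆ S) : Qf p c = ∑ s ∈ S, c s ^ 2 * p s :=
  Finsupp.sum_of_support_subset _ h _ (by simp)

theorem Qf_key {p p0 : (I →₀ ZMod 2) → ℝ} (h0 : ∀ s, 0 ≤ p s) (h1 : ∀ s, p s ≤ p0 s)
    (h2 : ∀ s, p0 s ≤ 1) (c c' : (I →₀ ZMod 2) →₀ ℝ) :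
    Qf p c' ≤ Qf p c + 4 * Qf 1 (c - c') + (Qf p0 c + Qf p0 c') / 8 := by
  classical
  have a1 : c.support ⊆ c.support ∪ c'.support := Finset.subset_union_left
  have a2 : c'.support ⊆ c.support ∪ c'.support := Finset.subset_union_right
  rw [Qf_eq p c a1, Qf_eq p c' a2, Qf_eq p0 c a1, Qf_eq p0 c' a2,
    Qf_eq 1 (c - c') Finsupp.support_sub, Finset.mul_sum, ← Finset.sum_add_distrib,
    ← Finset.sum_add_distrib, Finset.sum_div, ← Finset.sum_add_distrib]
  refine Finset.sum_le_sum fun s _ => ?_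
  simp only [Finsupp.coe_sub, Pi.sub_apply, Pi.one_apply]
  have b0 := h0 s
  have b1 := h1 s
  have b2 := h2 s
  generalize c s = x at *
  generalize c' s = y at *
  have k1 : y ^ 2 ≤ x ^ 2 + 4 * (x - y) ^ 2 + (x ^ 2 + y ^ 2) / 8 := by
    nlinarith [sq_nonneg (8 * (x - y) + (x + y)), sq_nonneg (x - y)]
  nlinarith [mul_le_mul_of_nonneg_right k1 b0, sq_nonneg (x - y), sq_nonneg x, sq_nonneg y,
    mul_nonneg (sq_nonneg (x - y)) (sub_nonneg.mpr (b1.trans b2)),
    mul_nonneg (add_nonneg (sq_nonneg x) (sq_nonneg y)) (sub_nonneg.mpr b1)]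

/-- Average of `φ` over the support. -/
noncomputable def av (φ : I → ℝ) (s : I →₀ ZMod 2) : ℝ := (∑ i ∈ s.support, φ i) / s.support.card

theorem av_map (φ : I → ℝ) (e : I ≃ I) : av φ ∘ Finsupp.mapDomain e = av (φ ∘ e) := by
  classical
  ext s
  simp only [Function.comp, av, Finsupp.mapDomain_support_of_injective e.injective]
  rw [Finset.sum_image e.injective.injOn, Finset.card_image_of_injective _ e.injective]

theorem av_mono {φ ψ : I → ℝ} (h : ∀ i, φ i ≤ ψ i) (s : I →₀ ZMod 2) : av φ s ≤ av ψ s :=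
  div_le_div_of_nonneg_right (Finset.sum_le_sum fun i _ => h i) (Nat.cast_nonneg _)

theorem av_add (φ ψ : I → ℝ) (s : I →₀ ZMod 2) : av (φ + ψ) s = av φ s + av ψ s := by
  simp [av, Finset.sum_add_distrib, add_div]

open Classical in
theorem av_one (s : I →₀ ZMod 2) : av 1 s = if s = 0 then 0 else 1 := by
  split_ifs with h
  · simp [av, h]
  · simp [av, h]

theorem Qf_add (p p' : (I →₀ ZMod 2) → ℝ) (c : (I →₀ ZMod 2) →₀ ℝ) :
    Qf (fun s => p s + p' s) c = Qf p c + Qf p' c := by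
  simp [Qf, Finsupp.sum, mul_add, Finset.sum_add_distrib]

theorem Qf_mono {p p' : (I →₀ ZMod 2) → ℝ} (h : ∀ s, p s ≤ p' s) (c : (I →₀ ZMod 2) →₀ ℝ) :
    Qf p c ≤ Qf p' c :=
  Finset.sum_le_sum fun s _ => mul_le_mul_of_nonneg_left (h s) (sq_nonneg _)

theorem Qf_one (c : (I →₀ ZMod 2) →₀ ℝ) : Qf 1 c = Qf (av 1) c + c 0 ^ 2 := by
  classical
  rw [Qf_eq 1 c (Finset.subset_insert 0 _), Qf_eq _ c (Finset.subset_insert 0 _),
    ← Finset.add_sum_erase _ _ (Finset.mem_insert_self 0 _),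
    ← Finset.add_sum_erase _ _ (Finset.mem_insert_self 0 _)]
  have : ∑ s ∈ (insert 0 c.support).erase 0, c s ^ 2 * av 1 s =
      ∑ s ∈ (insert 0 c.support).erase 0, c s ^ 2 * (1 : (I →₀ ZMod 2) → ℝ) s :=
    Finset.sum_congr rfl fun s hs => by simp [av_one, (Finset.mem_erase.mp hs).1]
  rw [this]
  simp [av_one, add_comm]

theorem Qf_half {φ φ' : I → ℝ} (e : I ≃ I) (h0 : ∀ i, 0 ≤ φ' i) (h1 : ∀ i, φ' i ≤ 1)
    (h : ∀ i, 1 ≤ φ i + φ' (e i)) (c : (I →₀ ZMod 2) →₀ ℝ) :
    Qf (av 1) c ≤ Qf (av φ) c + Qf (av φ') c +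
      4 * Qf 1 (c - c.mapDomain (Finsupp.mapDomain e)) + Qf (av 1) c / 4 := by
  have k := Qf_key (p := av φ') (p0 := av 1)
    (fun s => by simpa [av] using av_mono (φ := 0) h0 s) (av_mono h1)
    (fun s => by rw [av_one]; split_ifs <;> norm_num) c (c.mapDomain (Finsupp.mapDomain e))
  rw [Qf_map, Qf_map, av_map, av_map] at k
  have k2 : Qf (av 1) c ≤ Qf (av φ) c + Qf (av (φ' ∘ e)) c := by
    rw [← Qf_add]
    exact Qf_mono (fun s => by rw [← av_add]; exact av_mono h s) c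
  have : (1 : I → ℝ) ∘ e = 1 := rfl
  rw [this] at k
  linarith

/-- Sets whose indicator is a Walsh polynomial. -/
def WA (I : Type) : Set (Set (I → ZMod 2)) :=
  {T | MeasurableSet T ∧ T.indicator 1 ∈ Submodule.span ℝ (range (chi (I := I)))}

theorem span_mul {f g : (I → ZMod 2) → ℝ} (hf : f ∈ Submodule.span ℝ (range (chi (I := I))))
    (hg : g ∈ Submodule.span ℝ (range (chi (I := I)))) :
    f * g ∈ Submodule.span ℝ (range (chi (I := I))) := by
  have := Submodule.mul_mem_mul hf hg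
  rw [Submodule.span_mul_span] at this
  refine Submodule.span_mono ?_ this
  rintro _ ⟨_, ⟨s, rfl⟩, _, ⟨s', rfl⟩, rfl⟩
  exact ⟨s + s', (chi_mul s s').symm⟩

theorem WA_dense : (haarP I).MeasureDense (WA I) := by
  classical
  have one : (1 : (I → ZMod 2) → ℝ) ∈ Submodule.span ℝ (range (chi (I := I))) :=
    Submodule.subset_span ⟨0, chi_zero⟩
  refine Measure.MeasureDense.of_generateFrom_isSetAlgebra_finite _ ⟨⟨.empty, by rw [indicator_empty]; exact Submodule.zero_mem _⟩, ?_, ?_⟩ ?_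
  · rintro s ⟨h1, h2⟩
    refine ⟨h1.compl, ?_⟩
    rw [indicator_compl]
    exact Submodule.sub_mem _ one h2
  · rintro s t ⟨h1, h2⟩ ⟨h3, h4⟩
    refine ⟨h1.union h3, ?_⟩
    have : (s ∪ t).indicator (1 : (I → ZMod 2) → ℝ) =
        s.indicator 1 + t.indicator 1 - s.indicator 1 * t.indicator 1 := by
      ext ω
      by_cases a : ω ∈ s <;> by_cases b : ω ∈ t <;> simp [a, b]
    rw [this]
    exact Submodule.sub_mem _ (Submodule.add_mem _ h2 h4) (span_mul h2 h4)
  · refine le_antisymm ?_ (MeasurableSpace.generateFrom_le fun s hs => hs.1)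
    refine iSup_le fun i => ?_
    rw [← measurable_iff_comap_le]
    refine @measurable_to_countable' _ _ _ _ (MeasurableSpace.generateFrom _) _ fun a => ?_
    refine MeasurableSpace.measurableSet_generateFrom
      ⟨measurable_pi_apply i (measurableSet_singleton a), ?_⟩
    have : ((fun ω : I → ZMod 2 => ω i) ⁻¹' {a}).indicator (1 : (I → ZMod 2) → ℝ) =
        (1 / 2 : ℝ) • (1 + sg a • chi (Finsupp.single i 1)) := by
      ext ω
      have : ∀ a : ZMod 2, a = 0 ∨ a = 1 := by decide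
      rcases this a with rfl | rfl <;> rcases this (ω i) with h | h <;>
        simp [indicator, chi, sg, h] <;> norm_num
    rw [this]
    exact Submodule.smul_mem _ _ (Submodule.add_mem _ one
      (Submodule.smul_mem _ _ (Submodule.subset_span ⟨_, rfl⟩)))

theorem real_diff_comm {T : Set (I → ZMod 2)} (hT : MeasurableSet T) (e : I ≃ I) :
    (haarP I).real ((fun ω => ω ∘ e) ⁻¹' T \ T) = (haarP I).real (T \ (fun ω => ω ∘ e) ⁻¹' T) := by
  have hT' := hT.preimage (mp_comp e).measurable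
  have h1 := measureReal_inter_add_sdiff (μ := haarP I) (s := T) hT'
  have h2 := measureReal_inter_add_sdiff (μ := haarP I) (s := (fun ω => ω ∘ e) ⁻¹' T) hT
  rw [inter_comm, (mp_comp e).measureReal_preimage hT.nullMeasurableSet] at h2
  linarith

theorem gap_WA {φ1 φ1' φ2 φ2' : I → ℝ} (e1 e2 : I ≃ I) (p1 : ∀ i, 0 ≤ φ1 i) (p1' : ∀ i, 0 ≤ φ1' i)
    (p2 : ∀ i, 0 ≤ φ2 i) (p2' : ∀ i, 0 ≤ φ2' i) (hs : ∀ i, φ1 i + φ1' i + φ2 i + φ2' i ≤ 1)
    (h1 : ∀ i, 1 ≤ φ1 i + φ1' (e1 i)) (h2 : ∀ i, 1 ≤ φ2 i + φ2' (e2 i))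
    {T : Set (I → ZMod 2)} (hT : T ∈ WA I) :
    (haarP I).real T * (1 - (haarP I).real T) ≤
      16 * ((haarP I).real (T \ (fun ω => ω ∘ e1) ⁻¹' T) +
        (haarP I).real (T \ (fun ω => ω ∘ e2) ⁻¹' T)) := by
  obtain ⟨c, hc⟩ := Finsupp.mem_span_range_iff_exists_finsupp.mp hT.2
  have hc' : wp c = T.indicator 1 := hc
  have m0 : c 0 = (haarP I).real T := by rw [← integral_wp, hc', integral_indicator_one hT.1]
  have m1 : Qf 1 c = (haarP I).real T := by
    rw [← parseval, hc', ← integral_indicator_one hT.1]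
    congr 1
    ext ω
    by_cases h : ω ∈ T <;> simp [h]
  have m2 : ∀ e : I ≃ I, Qf 1 (c - c.mapDomain (Finsupp.mapDomain e)) =
      2 * (haarP I).real (T \ (fun ω => ω ∘ e) ⁻¹' T) := by
    intro e
    have hT' := hT.1.preimage (mp_comp e).measurable
    rw [← parseval, two_mul]
    nth_rewrite 1 [← real_diff_comm hT.1 e]
    rw [← measureReal_union disjoint_sdiff_sdiff (hT.1.diff hT'),
      ← integral_indicator_one ((hT'.diff hT.1).union (hT.1.diff hT'))]
    congr 1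
    ext ω
    have : wp (c - c.mapDomain (Finsupp.mapDomain e)) ω = wp c ω - wp c (ω ∘ e) := by
      rw [wp_comp]; simp [wp]
    rw [this, hc']
    by_cases h : ω ∈ T <;> by_cases h' : ω ∘ e ∈ T <;> simp [h, h']
  have k1 := Qf_half e1 p1' (fun i => by linarith [hs i, p1 i, p2 i, p2' i]) h1 c
  have k2 := Qf_half e2 p2' (fun i => by linarith [hs i, p1 i, p2 i, p1' i]) h2 c
  have k3 : Qf (av φ1) c + Qf (av φ1') c + Qf (av φ2) c + Qf (av φ2') c ≤ Qf (av 1) c := by
    rw [← Qf_add, ← Qf_add, ← Qf_add]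
    exact Qf_mono (fun s => by rw [← av_add, ← av_add, ← av_add]; exact av_mono hs s) c
  have k4 := Qf_one c
  rw [m2] at k1 k2
  rw [m0, m1] at k4
  nlinarith

theorem gap_haar {φ1 φ1' φ2 φ2' : I → ℝ} (e1 e2 : I ≃ I) (p1 : ∀ i, 0 ≤ φ1 i)
    (p1' : ∀ i, 0 ≤ φ1' i) (p2 : ∀ i, 0 ≤ φ2 i) (p2' : ∀ i, 0 ≤ φ2' i)
    (hs : ∀ i, φ1 i + φ1' i + φ2 i + φ2' i ≤ 1)
    (h1 : ∀ i, 1 ≤ φ1 i + φ1' (e1 i)) (h2 : ∀ i, 1 ≤ φ2 i + φ2' (e2 i))
    {T : Set (I → ZMod 2)} (hT : MeasurableSet T) (a1 : 1 / 4 ≤ (haarP I).real T)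
    (a2 : (haarP I).real T ≤ 1 / 2) :
    1 / 100 ≤ (haarP I).real (T \ (fun ω => ω ∘ e1) ⁻¹' T) +
        (haarP I).real (T \ (fun ω => ω ∘ e2) ⁻¹' T) := by
  obtain ⟨T', hT', hd⟩ := WA_dense.approx T hT (measure_ne_top _ _) (1 / 10000) (by norm_num)
  have hd' : (haarP I).real (T ∆ T') ≤ 1 / 10000 :=
    ENNReal.toReal_le_of_le_ofReal (by norm_num) hd.le
  have md : MeasurableSet (T ∆ T') := hT.symmDiff hT'.1
  have k := gap_WA e1 e2 p1 p1' p2 p2' hs h1 h2 hT'
  have b : ∀ e : I ≃ I, (haarP I).real (T' \ (fun ω => ω ∘ e) ⁻¹' T') ≤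
      (haarP I).real (T \ (fun ω => ω ∘ e) ⁻¹' T) + 1 / 10000 + 1 / 10000 := by
    intro e
    refine le_trans (measureReal_mono (s₂ := (T \ (fun ω => ω ∘ e) ⁻¹' T) ∪ T ∆ T' ∪
      (fun ω => ω ∘ e) ⁻¹' (T ∆ T')) ?_) ((measureReal_union_le _ _).trans (add_le_add
        ((measureReal_union_le _ _).trans (add_le_add le_rfl hd')) ?_))
    · intro ω h
      simp only [mem_union, mem_sdiff, mem_preimage, mem_symmDiff] at h ⊢
      tauto
    · rwa [(mp_comp e).measureReal_preimage md.nullMeasurableSet]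
  have c1 : (haarP I).real T ≤ (haarP I).real T' + 1 / 10000 := by
    refine le_trans (measureReal_mono (s₂ := T' ∪ T ∆ T') ?_) ((measureReal_union_le _ _).trans
      (add_le_add le_rfl hd'))
    intro ω h
    simp only [mem_union, mem_symmDiff]
    tauto
  have c2 : (haarP I).real T' ≤ (haarP I).real T + 1 / 10000 := by
    refine le_trans (measureReal_mono (s₂ := T ∪ T ∆ T') ?_) ((measureReal_union_le _ _).trans
      (add_le_add le_rfl hd'))
    intro ω h
    simp only [mem_union, mem_symmDiff]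
    tauto
  have b1 := b e1
  have b2 := b e2
  nlinarith [mul_nonneg (sub_nonneg.mpr (a1.trans c1)) (sub_nonneg.mpr (c2.trans
    (add_le_add a2 le_rfl)))]

end Crest.Agent.H0291
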