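import Crest.Agent.H0291.Red

set_option autoImplicit false

namespace Crest.Agent.H0291

open HNNExtension

section britton
variable {K : Type*} [Group K] {H : Subgroup K}

/-- the centralising HNN extension -/
abbrev HN (K : Type*) [Group K] (H : Subgroup K) := HNNExtension K H H (MulEquiv.refl H)

lemma toSub (u : ℤˣ) : toSubgroup H H u = H := by unfold toSubgroup; split_ifs <;> rfl

lemma t_comm {h : K} (hh : h ∈ H) : Commute (t : HN K H) (of h) :=
  t_mul_of (φ := MulEquiv.refl H) ⟨h, hh⟩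

/-- `g` is a reduced word starting with `t ^ u` -/
def RW (u : ℤˣ) (g : HN K H) : Prop :=
  ∃ w : NormalWord.ReducedWord K H H, w.prod (MulEquiv.refl H) = g ∧ w.head ∈ H ∧
    ∃ a l, w.toList = (u, a) :: l

lemma RW.not_mem {u : ℤˣ} {g : HN K H} (h : RW u g) : g ∉ (of : K →* HN K H).range := by
  obtain ⟨w, rfl, -, a, l, hl⟩ := h
  intro hm
  rw [ReducedWord.toList_eq_nil_of_mem_of_range _ w hm] at hl
  cases hl

lemma RW.base (u : ℤˣ) (f : K) : RW u ((t : HN K H) ^ (u : ℤ) * of f) :=
  ⟨⟨1, [(u, f)], List.isChain_singleton _⟩, by simp [NormalWord.ReducedWord.prod], H.one_mem,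
    f, [], rfl⟩

lemma RW.step {u u' : ℤˣ} {g : HN K H} (h : RW u' g) (f : K) (hf : f ∈ H → u = u') :
    RW u ((t : HN K H) ^ (u : ℤ) * of f * g) := by
  obtain ⟨w, rfl, hw, a, l, hl⟩ := h
  refine ⟨⟨1, (u, f * w.head) :: w.toList, ?_⟩, ?_, H.one_mem, _, _, rfl⟩
  · have := w.chain
    rw [hl] at this ⊢
    refine List.isChain_cons_cons.2 ⟨fun h => hf ?_, this⟩
    rw [toSub] at h
    exact (H.mul_mem_cancel_right hw).1 h
  · simp [NormalWord.ReducedWord.prod, mul_assoc]

lemma RW.zpow {x : HN K H} (hx : ∀ u : ℤˣ, RW u ((t : HN K H) ^ (u : ℤ) * x)) {m : ℤ}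
    (hm : m ≠ 0) : ∃ u, RW u ((t : HN K H) ^ m * x) := by
  have key : ∀ (u : ℤˣ) (n : ℕ), RW u ((t : HN K H) ^ ((u : ℤ) * (n + 1)) * x) := by
    intro u n
    induction n with
    | zero => simpa using hx u
    | succ n ih =>
      have := ih.step (u := u) 1 fun _ => rfl
      rw [map_one, mul_one, ← mul_assoc, ← zpow_add] at this
      convert this using 3
      push_cast; ring
  rcases lt_or_gt_of_ne hm with h | h
  · refine ⟨-1, ?_⟩
    convert key (-1) (m.natAbs - 1) using 3
    simp only [Units.val_neg, Units.val_one]; omega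
  · refine ⟨1, ?_⟩
    convert key 1 (m.natAbs - 1) using 3
    simp only [Units.val_one]; omega

/-- the subgroup `H × ⟨t⟩` -/
def LamH (H : Subgroup K) : Subgroup (HN K H) where
  carrier := {l | ∃ (m : ℤ) (h : K), h ∈ H ∧ l = t ^ m * of h}
  mul_mem' := by
    rintro _ _ ⟨m, h, hh, rfl⟩ ⟨m', h', hh', rfl⟩
    refine ⟨m + m', h * h', H.mul_mem hh hh', ?_⟩
    rw [zpow_add, map_mul, mul_assoc, mul_assoc, ← mul_assoc (of h),
      ← ((t_comm hh).zpow_left m').eq, mul_assoc]
  one_mem' := ⟨0, 1, H.one_mem, by simp⟩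
  inv_mem' := by
    rintro _ ⟨m, h, hh, rfl⟩
    refine ⟨-m, h⁻¹, H.inv_mem hh, ?_⟩
    rw [((t_comm (H.inv_mem hh)).zpow_left (-m)).eq]
    simp

theorem britton1 (g : HN K H) (hg : Red1 (of : K →* HN K H).range (H.map of) (LamH H) g) :
    g ∉ (of : K →* HN K H).range := by
  suffices ∃ u, RW u g from this.elim fun _ h => h.not_mem
  induction hg with
  | base l f hl hl' hf =>
    obtain ⟨m, h, hh, rfl⟩ := hl
    obtain ⟨f, rfl⟩ := hf
    have hm : m ≠ 0 := by
      rintro rfl
      exact hl' ⟨h, hh, by simp⟩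
    rw [mul_assoc, ← map_mul]
    exact RW.zpow (fun u => RW.base u _) hm
  | step l f g hl hl' hf hf' _ ih =>
    obtain ⟨m, h, hh, rfl⟩ := hl
    obtain ⟨f, rfl⟩ := hf
    obtain ⟨u', ih⟩ := ih
    have hm : m ≠ 0 := by
      rintro rfl
      exact hl' ⟨h, hh, by simp⟩
    rw [mul_assoc (t ^ m), ← map_mul, mul_assoc]
    refine RW.zpow (fun u => ?_) hm
    rw [← mul_assoc]
    refine ih.step _ fun hm => (hf' ⟨f, (H.mul_mem_cancel_left hh).1 hm, rfl⟩).elim

theorem britton2 {G : Type*} [Group G] (ι : HN K ⊥ →* G) (hι : Function.Injective ι) (s : Bool)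
    (g : G) (hg : Red2 (ι.comp of).range (ι t) s g) : g ∉ (ι.comp of).range := by
  suffices ∃ g', g = ι g' ∧ RW (if s then 1 else -1) g' by
    obtain ⟨g', rfl, h⟩ := this
    rintro ⟨a, ha⟩
    exact h.not_mem ⟨a, hι ha⟩
  have e : ∀ s : Bool, (if s then ι t else (ι t)⁻¹) = ι (t ^ (((if s then 1 else -1 : ℤˣ)) : ℤ)) := by
    intro s; cases s <;> simp
  induction hg with
  | base s a ha =>
    obtain ⟨a, rfl⟩ := ha
    exact ⟨_, by rw [e, map_mul]; rfl, RW.base _ a⟩
  | step s s' a g ha h _ ih =>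
    obtain ⟨a, rfl⟩ := ha
    obtain ⟨g', rfl, ih⟩ := ih
    refine ⟨_, by rw [e, map_mul, map_mul]; rfl, ih.step a fun ha => ?_⟩
    rw [h (by rw [Subgroup.mem_bot.1 ha, map_one])]

end britton

lemma countable_of_closure {G : Type*} [Group G] {S : Set G} (hS : S.Countable)
    (h : Subgroup.closure S = ⊤) : Countable G := by
  have : Countable S := hS
  have : Countable (FreeGroup S) := by
    classical
    exact FreeGroup.toWord_injective.countable
  refine (show Function.Surjective (FreeGroup.lift ((↑) : S → G)) from ?_).countable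
  rw [← MonoidHom.range_eq_top, FreeGroup.range_lift_eq_closure, Subtype.range_coe, h]

abbrev A0 := FreeGroup (Fin 2)
abbrev F0 := HN A0 ⊥
def H0 : Subgroup F0 := Subgroup.closure
  (((of : A0 →* F0).range : Set F0) ∪ {t * of (FreeGroup.of 1) * t * of (FreeGroup.of 0) * t})
abbrev GG := HN F0 H0

def aG (i : Fin 2) : GG := of (of (FreeGroup.of i))
def bG : GG := of t
def tG : GG := t
def AG : Subgroup GG := ((of : F0 →* GG).comp of).range
def FG : Subgroup GG := (of : F0 →* GG).range
def HG : Subgroup GG := H0.map of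
def LG : Subgroup GG := LamH H0

lemma aG_mem (i : Fin 2) : aG i ∈ AG := ⟨_, rfl⟩

lemma aG_ne : aG 0 ≠ aG 1 := fun h => by
  have := FreeGroup.of_injective (of_injective _ (of_injective _ h))
  simp at this

lemma HG_le_FG : HG ≤ FG := Subgroup.map_le_range _ _

lemma HG_le_LG : HG ≤ LG := by
  rintro _ ⟨h, hh, rfl⟩
  exact ⟨0, h, hh, by simp⟩

lemma bG_mem : bG ∈ FG := ⟨_, rfl⟩

lemma HG_le : HG ≤ Subgroup.closure ((AG : Set GG) ∪ {bG * aG 1 * bG * aG 0 * bG}) := by
  refine (MonoidHom.map_closure _ _).trans_le ?_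
  rw [Subgroup.closure_le]
  rintro _ ⟨x, (⟨a, rfl⟩ | rfl), rfl⟩
  · exact Subgroup.subset_closure (Or.inl ⟨a, rfl⟩)
  · exact Subgroup.subset_closure (Or.inr (by simp [bG, aG]))

lemma FG_le : FG ≤ Subgroup.closure ((AG : Set GG) ∪ {bG}) := by
  rintro _ ⟨x, rfl⟩
  induction x using HNNExtension.induction_on with
  | of a => exact Subgroup.subset_closure (Or.inl ⟨a, rfl⟩)
  | t => exact Subgroup.subset_closure (Or.inr rfl)
  | mul x y hx hy => rw [map_mul]; exact mul_mem hx hy
  | inv x hx => rw [map_inv]; exact inv_mem hx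

lemma tG_mem : tG ∈ LG := ⟨1, 1, H0.one_mem, by simp [tG]⟩

lemma closure_FG_LG : Subgroup.closure ((FG : Set GG) ∪ LG) = ⊤ := by
  rw [eq_top_iff]
  intro x hx
  clear hx
  induction x using HNNExtension.induction_on with
  | of a => exact Subgroup.subset_closure (Or.inl ⟨a, rfl⟩)
  | t => exact Subgroup.subset_closure (Or.inr tG_mem)
  | mul x y hx hy => exact mul_mem hx hy
  | inv x hx => exact inv_mem hx

lemma eq_top_of_mem {S : Subgroup GG} (ha : ∀ i, aG i ∈ S) (hb : bG ∈ S) (ht : tG ∈ S) : S = ⊤ := by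
  have hA : AG ≤ S := by
    rintro _ ⟨x, rfl⟩
    induction x using FreeGroup.induction_on with
    | C1 => simp
    | of a => exact ha a
    | inv_of a ih => rw [map_inv]; exact inv_mem ih
    | mul x y hx hy => rw [map_mul]; exact mul_mem hx hy
  have hF : FG ≤ S := FG_le.trans (by
    rw [Subgroup.closure_le]
    rintro x (hx | rfl)
    exacts [hA hx, hb])
  rw [eq_top_iff]
  intro x hx
  clear hx
  induction x using HNNExtension.induction_on with
  | of a => exact hF ⟨a, rfl⟩
  | t => exact ht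
  | mul x y hx hy => exact mul_mem hx hy
  | inv x hx => exact inv_mem hx

lemma closure_gens : Subgroup.closure ({aG 0, aG 1, bG, tG} : Set GG) = ⊤ :=
  eq_top_of_mem (fun i => Subgroup.subset_closure (by fin_cases i <;> simp))
    (Subgroup.subset_closure (by simp)) (Subgroup.subset_closure (by simp))

lemma fg_GG : Group.FG GG :=
  Group.fg_iff.2 ⟨_, closure_gens, Set.toFinite _⟩

instance : Countable GG := countable_of_closure (Set.to_countable _) closure_gens

/-- the degree map -/
def deg : GG →* Multiplicative ℤ :=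
  lift (lift (FreeGroup.lift fun _ => Multiplicative.ofAdd 1) 1 (by simp)) (Multiplicative.ofAdd 1)
    (fun a => mul_comm _ _)

lemma deg_a (i : Fin 2) : deg (aG i) = Multiplicative.ofAdd 1 := by simp [deg, aG]
lemma deg_b : deg bG = 1 := by simp [deg, bG]
lemma deg_t : deg tG = Multiplicative.ofAdd 1 := by simp [deg, tG]

lemma LG_infinite : (LG : Set GG).Infinite := by
  refine Set.infinite_of_injective_forall_mem (f := fun n : ℕ => tG ^ n) ?_
    fun n => LG.pow_mem tG_mem n
  intro n m h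
  have := congrArg deg h
  simpa [deg_t, ← ofAdd_nsmul] using this

/-- the retraction to the free group -/
def theta : GG →* FreeGroup (Fin 2) :=
  lift (lift (MonoidHom.id _) 1 (by simp)) 1 (by simp)

lemma theta_ab (i : Fin 2) : theta (aG i * bG) = FreeGroup.of i := by simp [theta, aG, bG]

lemma T1_GG (g : GG) (h : Red1 FG HG LG g) : g ∉ FG := britton1 g h

lemma T2_GG (s : Bool) (g : GG) (h : Red2 AG bG s g) : g ∉ AG :=
  britton2 of (of_injective _) s g h

lemma comm_a (i : Fin 2) : Commute tG (aG i) :=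
  t_comm (Subgroup.subset_closure (Or.inl ⟨_, rfl⟩))

lemma comm_w : Commute tG (bG * aG 1 * bG * aG 0 * bG) := by
  have : Commute tG (of _) := t_comm (H := H0) (Subgroup.subset_closure (Or.inr rfl))
  simpa [bG, aG] using this

end Crest.Agent.H0291
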