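import Mathlib
import Crest.Prelude.Def_Cost

set_option autoImplicit false

open MeasureTheory Crest.Dynamics

namespace Crest.Agent.H0291

theorem upper {G X : Type} [Group G] [MulAction G X] [MeasurableSpace X] [StandardBorelSpace X]
    (μ : Measure X) [IsProbabilityMeasure μ] (hX : IsFreePMPAction G X μ)
    (deg : G →* Multiplicative ℤ) (t a1 a2 b : G)
    (h1 : Commute t a1) (h2 : Commute t a2) (hw : Commute t (b * a2 * b * a1 * b))
    (hgen : Subgroup.closure ({a1, a2, b, t} : Set G) = ⊤)
    (d1 : deg a1 = Multiplicative.ofAdd 1) (d2 : deg a2 = Multiplicative.ofAdd 1)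
    (db : deg b = 1) (dt : deg t = Multiplicative.ofAdd 1) (M : ℕ) (hM : 100 < M) :
    ∃ (Y : Type) (_ : MeasurableSpace Y) (_ : StandardBorelSpace Y) (ν : Measure Y)
      (_ : IsProbabilityMeasure ν) (_ : MulAction G Y),
      IsFreePMPAction G Y ν ∧ actionCost G Y ν ≤ 1 + 99 / (M : ENNReal) := by
  have : NeZero M := ⟨by omega⟩
  set d : G → ZMod M := fun g => ((deg g).toAdd : ℤ) with hd
  have dmul : ∀ g h, d (g * h) = d g + d h := by intro g h; simp [hd]
  have done : d 1 = 0 := by simp [hd]
  let act : MulAction G (X × ZMod M) :=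
    { smul := fun g y => (g • y.1, d g + y.2)
      one_smul := fun y => by
        change ((1 : G) • y.1, d 1 + y.2) = y
        simp [done]
      mul_smul := fun g h y => by
        change ((g * h) • y.1, d (g * h) + y.2) = (g • h • y.1, d g + (d h + y.2))
        rw [mul_smul, dmul, add_assoc] }
  have hs : ∀ (g : G) (y : X × ZMod M), g • y = (g • y.1, d g + y.2) := fun _ _ => rfl
  set κ : Measure (ZMod M) := (M : ENNReal)⁻¹ • Measure.count with hκ
  have hM0 : (M : ENNReal) ≠ 0 := by simp; omega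
  have : IsProbabilityMeasure κ := ⟨by
    simp [hκ, ENNReal.inv_mul_cancel hM0]⟩
  have hκ1 : ∀ k, κ {k} = (M : ENNReal)⁻¹ := by intro k; simp [hκ]
  refine ⟨X × ZMod M, inferInstance, inferInstance, μ.prod κ, inferInstance, act, ⟨fun g => ?_,
    fun g hg => ?_⟩, ?_⟩
  · exact (hX.1 g).prod (measurePreserving_add_left κ (d g))
  · refine measure_mono_null (t := {x | g • x = x} ×ˢ Set.univ) ?_ ?_
    · intro y hy
      exact ⟨congrArg Prod.fst hy, trivial⟩
    · rw [Measure.prod_prod, hX.2 g hg, zero_mul]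
  set L : ZMod M → Set (X × ZMod M) := fun k => Set.univ ×ˢ {k} with hL
  have hLm : ∀ k, μ.prod κ (L k) = (M : ENNReal)⁻¹ := by
    intro k; simp [hL, Measure.prod_prod, hκ1]
  set Φ : ℕ → G × Set (X × ZMod M) := fun i =>
    match i with
    | 0 => (t, Set.univ)
    | 1 => (a1, L 0)
    | 2 => (a2, L 0)
    | 3 => (b * a2 * b * a1 * b, L 0)
    | 4 => (b, L 0)
    | 5 => (b, L 1)
    | _ => (1, ∅) with hΦ
  refine le_trans (sInf_le ⟨Φ, ⟨fun i => ?_, ∅, measure_empty, fun x _ g => ?_⟩, rfl⟩) ?_
  · have : ∀ k, MeasurableSet (L k) := fun k => MeasurableSet.univ.prod (measurableSet_singleton k)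
    simp only [hΦ]
    split <;> simp [this]
  · set R := Relation.EqvGen (GraphingStep Φ) with hR
    have hE : Equivalence R := Relation.EqvGen.is_equivalence _
    let S : Subgroup G :=
      { carrier := {g | ∀ y, R y (g • y)}
        mul_mem' := fun {g h} hg hh y => by
          rw [mul_smul]; exact hE.trans (hh y) (hg _)
        one_mem' := fun y => by rw [one_smul]; exact hE.refl _
        inv_mem' := fun {g} hg y => by
          have := hg (g⁻¹ • y)
          rw [smul_inv_smul] at this
          exact hE.symm this }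
    have ht : t ∈ S := fun y => .rel _ _ ⟨0, trivial, rfl⟩
    have dtn : ∀ n : ℕ, d (t ^ n) = n := by
      intro n; simp [hd, dt]
    have hc : ∀ h : G, Commute t h → (∀ y ∈ L 0, R y (h • y)) → h ∈ S := by
      intro h hh h0 y
      set n := (-y.2).val
      have e1 : R y (t ^ n • y) := S.pow_mem ht n y
      have e2 := h0 (t ^ n • y) ⟨trivial, by simp [hs, dtn, n]⟩
      have e3 : R (h • y) (t ^ n • h • y) := S.pow_mem ht n _
      rw [← mul_smul, (hh.pow_left n).eq, mul_smul] at e3
      exact hE.trans e1 (hE.trans e2 (hE.symm e3))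
    have ha1 : a1 ∈ S := hc _ h1 fun y hy => .rel _ _ ⟨1, hy, rfl⟩
    have ha2 : a2 ∈ S := hc _ h2 fun y hy => .rel _ _ ⟨2, hy, rfl⟩
    have hw' : b * a2 * b * a1 * b ∈ S := hc _ hw fun y hy => .rel _ _ ⟨3, hy, rfl⟩
    have hb : ∀ n : ℕ, (∀ y ∈ L n, R y (b • y)) ∧ ∀ y ∈ L (n + 1), R y (b • y) := by
      intro n
      induction n with
      | zero =>
        exact ⟨fun y hy => .rel _ _ ⟨4, show y ∈ L 0 by simpa using hy, rfl⟩,
          fun y hy => .rel _ _ ⟨5, show y ∈ L 1 by simpa using hy, rfl⟩⟩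
      | succ n ih =>
        refine ⟨by simpa using ih.2, fun z hz => ?_⟩
        obtain ⟨y, rfl⟩ : ∃ y, z = a2 • b • a1 • b • y :=
          ⟨b⁻¹ • a1⁻¹ • b⁻¹ • a2⁻¹ • z, by simp⟩
        have hz2 : y.2 = n := by
          have := hz.2
          simp only [hs, hd, d1, d2, db, Set.mem_singleton_iff] at this
          simp at this
          linear_combination this
        have e1 := ih.1 y ⟨trivial, hz2⟩
        have e2 := ha1 (b • y)
        have e3 := ih.2 (a1 • b • y) ⟨trivial, by simp [hs, hd, d1, db, hz2, add_comm]⟩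
        have e4 := ha2 (b • a1 • b • y)
        have e5 := hw' y
        simp only [mul_smul] at e5
        exact hE.trans (hE.symm (hE.trans e1 (hE.trans e2 (hE.trans e3 e4)))) e5
    have hb' : b ∈ S := fun y => (hb y.2.val).1 y ⟨trivial, by simp⟩
    have : Subgroup.closure ({a1, a2, b, t} : Set G) ≤ S := by
      rw [Subgroup.closure_le]
      rintro x (rfl | rfl | rfl | rfl)
      exacts [ha1, ha2, hb', ht]
    rw [hgen] at this
    exact this (Subgroup.mem_top g) x
  · rw [graphingCost, tsum_eq_sum (s := Finset.range 6)]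
    · simp only [Finset.sum_range_succ, Finset.sum_range_zero, hΦ, hLm, measure_univ, zero_add,
        add_assoc]
      gcongr
      rw [div_eq_mul_inv]
      calc _ = 5 * (M : ENNReal)⁻¹ := by ring
        _ ≤ _ := by gcongr; norm_num
    · intro i hi
      obtain ⟨j, rfl⟩ : ∃ j, i = j + 6 := ⟨i - 6, by simp at hi; omega⟩
      simp [hΦ]

end Crest.Agent.H0291
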