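import Crest.Agent.H0291.Low
import Crest.Agent.H0291.Grp
import Crest.Agent.H0291.Upper

set_option autoImplicit false

open MeasureTheory Crest.Dynamics

namespace Crest.Agent.H0291

instance : MeasurableSpace GG := ⊤
instance : DiscreteMeasurableSpace GG := ⟨fun _ => trivial⟩

theorem final {X : Type} [MeasurableSpace X] [StandardBorelSpace X] (μ : Measure X)
    [IsProbabilityMeasure μ] [MulAction GG X] [MeasurableSMul₂ GG X] [IsCancelSMul GG X]
    [SMulInvariantMeasure GG X μ]
    (gap : ∀ T, MeasurableSet T → 1 / 4 ≤ μ T → μ T ≤ 1 / 2 → (1 / 100 : ENNReal) ≤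
      μ (T \ (fun x => (aG 0 * bG) • x) ⁻¹' T) + μ (T \ (fun x => (aG 1 * bG) • x) ⁻¹' T)) :
    ∃ (Γ : Type) (_ : Group Γ), Group.FG Γ ∧
      (∃ (X : Type) (_ : MeasurableSpace X) (_ : StandardBorelSpace X) (μ : MeasureTheory.Measure X)
          (_ : MeasureTheory.IsProbabilityMeasure μ) (_ : MulAction Γ X),
          Crest.Dynamics.IsFreePMPAction Γ X μ ∧
          ∀ α : ℝ, 0 < α → α < 1 / 200 → Real.exp 96 * 96 ^ 99 * α ^ 3 / 95 ^ 95 < 1 / 2 →
            1 + ENNReal.ofReal (α / 100) ≤ Crest.Dynamics.actionCost Γ X μ) ∧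
      ∀ M : ℕ, 100 < M →
        ∃ (Y : Type) (_ : MeasurableSpace Y) (_ : StandardBorelSpace Y) (ν : MeasureTheory.Measure Y)
          (_ : MeasureTheory.IsProbabilityMeasure ν) (_ : MulAction Γ Y),
          Crest.Dynamics.IsFreePMPAction Γ Y ν ∧
          Crest.Dynamics.actionCost Γ Y ν ≤ 1 + 99 / (M : ENNReal) := by
  have hX : IsFreePMPAction GG X μ := by
    refine ⟨fun g => measurePreserving_smul g μ, fun g hg => ?_⟩
    have : {x : X | g • x = x} = ∅ := by
      ext x
      simp only [Set.mem_ofPred_eq, Set.mem_empty_iff_false, iff_false]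
      intro h
      exact hg (IsCancelSMul.right_cancel g 1 x (by rw [h, one_smul]))
    rw [this, measure_empty]
  refine ⟨GG, inferInstance, fg_GG, ⟨X, inferInstance, inferInstance, μ, inferInstance,
    inferInstance, hX, fun α h0 h1 _ => ?_⟩, fun M hM => ?_⟩
  · refine le_trans ?_ (lower μ AG FG HG LG (aG 0) (aG 1) bG (aG_mem 0) (aG_mem 1) aG_ne HG_le_FG
      HG_le_LG bG_mem HG_le FG_le closure_FG_LG LG_infinite T1_GG T2_GG gap)
    gcongr
    rw [show (1 / 20000 : ENNReal) = ENNReal.ofReal (1 / 20000) by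
      rw [ENNReal.ofReal_div_of_pos (by norm_num)]; simp]
    exact ENNReal.ofReal_le_ofReal (by linarith)
  · exact upper μ hX deg tG (aG 0) (aG 1) bG (comm_a 0) (comm_a 1) comm_w closure_gens (deg_a 0)
      (deg_a 1) deg_b deg_t M hM

end Crest.Agent.H0291
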