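import Crest.Agent.H0291.LowCell
import Crest.Prelude.Def_Cost

set_option autoImplicit false
set_option linter.unusedSectionVars false
open MeasureTheory Set
open scoped ENNReal

namespace Crest.Agent.H0291

variable {G X : Type*} [Group G] [MulAction G X] [MeasurableSpace X] [StandardBorelSpace X]
variable {μ : Measure X}
variable [Countable G] [MeasurableSpace G] [DiscreteMeasurableSpace G] [MeasurableSMul₂ G X]
  [IsCancelSMul G X] [IsProbabilityMeasure μ] [SMulInvariantMeasure G X μ]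

theorem small_section (Λ : Subgroup G) (hinf : (Λ : Set G).Infinite) :
    ∃ S : Set X, MeasurableSet S ∧ μ S ≤ 1 / 100000 + 1 / 100000 ∧ ∀ x, ∃ s ∈ S, Orb Λ x s := by
  classical
  have hu : nu μ Unit univ = 1 := by simpa using nu_unit μ MeasurableSet.univ
  obtain ⟨S0, S, m0, m, -, -, h1, h2, h3⟩ := exists_section μ G (I := Unit) MeasurableSet.univ
    (by rw [hu]; simp) (r := fun a b => Orb Λ a.1 b.1) (by fun_prop) (fun _ _ h => h.top)
    (fun _ _ => Orb.refl _ _) (fun _ _ => Orb.symm) (fun _ _ _ => Orb.trans)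
    (ε := 1 / 100000) (by simp)
  have h4 := dc μ G m0 (MeasurableSet.univ (α := X × Unit)) (ρ := fun a b => Orb Λ a.1 b.1)
    (by fun_prop) (fun _ _ h => h.top) 100000
    (by
      intro a _
      obtain ⟨t, ht, hc⟩ := hinf.exists_subset_card_eq 100000
      refine ⟨t.image fun g => (g • a.1, ()), ?_, ?_⟩
      · rw [Finset.card_image_of_injective _ fun g g' h =>
          IsCancelSMul.right_cancel _ _ _ (congrArg Prod.fst h), hc]
      · intro p hp
        obtain ⟨g, hg, rfl⟩ := Finset.mem_image.mp hp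
        exact ⟨trivial, g, ht hg, rfl⟩)
    (fun b _ a ha a' ha' h h' => h3 _ ha _ ha' (h.trans h'.symm))
  rw [hu] at h4
  have mS : MeasurableSet {x | (x, ()) ∈ S} := m.preimage (f := fun x => (x, ())) (by fun_prop)
  refine ⟨{x | (x, ()) ∈ S}, mS, ?_, fun x => ?_⟩
  · rw [← nu_unit μ mS]
    refine le_trans (measure_mono (t := S0 ∪ S \ S0) ?_) ((measure_union_le _ _).trans
      (add_le_add ?_ h1))
    · intro p hp
      by_cases h : p ∈ S0
      · exact Or.inl h
      · exact Or.inr ⟨hp, h⟩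
    · rw [ENNReal.le_div_iff_mul_le (by simp) (by simp), mul_comm]
      exact_mod_cast h4
  · obtain ⟨s, hs, h⟩ := h2 (x, ()) trivial
    exact ⟨s.1, hs, h⟩

def zEn (Φ : ℕ → G × Set X) (s : Bool) : X × U → X × U
  | (x, .nil) => (x, .nil)
  | (x, .c 0 _) => if s then (x, .nil) else (x, .c 0 .nil)
  | (x, .c (n + 1) _) => if s then ((Φ n).1 • x, .c 0 .nil) else (x, .c 0 .nil)

def zGeo (Φ : ℕ → G × Set X) : Geo G X where
  i0 := .nil
  pt := Prod.fst
  en := zEn Φ
  pt_meas := measurable_fst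
  en_meas s := by
    refine measurable_from_prod_countable_left fun j => ?_
    rcases j with _ | ⟨_ | k, j⟩ <;> cases s <;> simp [zEn] <;> fun_prop
  pt_orb v := Orb.refl _ _
  en_orb s e := by
    rcases e with ⟨x, _ | ⟨_ | k, j⟩⟩ <;> cases s
    exacts [Orb.refl _ _, Orb.refl _ _, Orb.refl _ _, Orb.refl _ _, Orb.refl _ _, Orb.smul _ _]
  pt_main _ := rfl

theorem stage0 (Λ : Subgroup G) (hinf : (Λ : Set G).Infinite) (b : G) (Φ : ℕ → G × Set X)
    (hΦ : Crest.Dynamics.Generates μ Φ) (hc : Crest.Dynamics.graphingCost μ Φ ≤ 1 + 1 / 20000) :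
    ∃ σ : St G μ, nu μ U σ.E ≤ nu μ U σ.W + (1 / 20000 + (1 / 100000 + 1 / 100000)) ∧
      1 ≤ μ {x | σ.Conn σ.E Λ (x, σ.i0) (b • x, σ.i0)} := by
  obtain ⟨mΦ, N, hN, hgen⟩ := hΦ
  obtain ⟨S, mS, hS, hS'⟩ := small_section (μ := μ) Λ hinf
  let R : ℕ → Set X := fun n => match n with
    | 0 => S ∪ toMeasurable μ N
    | n + 1 => (Φ n).2
  have mR : ∀ n, MeasurableSet (R n) := fun n => match n with
    | 0 => mS.union (measurableSet_toMeasurable _ _)
    | n + 1 => mΦ n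
  let En : ℕ → Set (X × U) := fun n => {e | e.2 = .nil ∧ e.1 ∈ R n}
  have mEn : ∀ n, MeasurableSet (En n) := fun n =>
    (Measurable.setOf (by fun_prop) : MeasurableSet {e : X × U | e.2 = .nil}).inter
      ((mR n).preimage measurable_fst)
  have nEn : ∀ n, nu μ U (En n) = μ (R n) := by
    intro n
    rw [nu_apply μ (mEn n), tsum_eq_single .nil]
    · simp [En]
    · intro j hj; simp [En, hj]
  let γ := zGeo Φ
  have hE : ∀ n x, x ∈ R n → (x, U.c n .nil) ∈ ⋃ n, lay n (En n) := fun n x h =>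
    mem_iUnion.mpr ⟨n, mem_lay.mpr ⟨rfl, rfl, h⟩⟩
  have link : ∀ (K : Subgroup G), ∀ x ∈ R 0, γ.Conn (⋃ n, lay n (En n)) K (x, .c 0 .nil) (x, .nil) :=
    fun K x h => Geo.Conn.edge (γ := γ) (hE 0 x h) false true
  have gen : ∀ (K : Subgroup G) x y, Relation.EqvGen (Crest.Dynamics.GraphingStep Φ) x y →
      γ.Conn (⋃ n, lay n (En n)) K (x, .c 0 .nil) (y, .c 0 .nil) := by
    intro K x y h
    induction h with
    | rel x y h =>
      obtain ⟨n, h1, rfl⟩ := h
      exact Geo.Conn.edge (γ := γ) (hE (n + 1) x h1) false true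
    | refl => exact Geo.Conn.refl
    | symm _ _ _ ih => exact ih.symm
    | trans _ _ _ _ _ ih ih' => exact ih.trans ih'
  let σ : St G μ :=
    { toGeo := γ
      W := {v | v.2 = .c 0 .nil}
      E := ⋃ n, lay n (En n)
      W_meas := Measurable.setOf (by fun_prop)
      E_meas := MeasurableSet.iUnion fun n => meas_lay (mEn n)
      W_main := fun x h => by cases h
      W_fin := by rw [nu_main]; simp
      en_valid := by
        intro e he s
        obtain ⟨n, hn⟩ := mem_iUnion.mp he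
        obtain ⟨x, j, rfl, -⟩ := lay_cases hn
        rcases n with _ | n <;> cases s
        exacts [Or.inl rfl, Or.inr rfl, Or.inl rfl, Or.inl rfl]
      conn := by
        rintro ⟨x, j⟩ h
        cases h
        by_cases hx : x ∈ N
        · exact ⟨x, link _ x (Or.inr (subset_toMeasurable _ _ hx))⟩
        · obtain ⟨_, hs, g, -, rfl⟩ := hS' x
          exact ⟨_, (gen _ _ _ (hgen x hx g)).trans (link _ _ (Or.inl hs))⟩ }
  refine ⟨σ, ?_, ?_⟩
  · show nu μ U (⋃ n, lay n (En n)) ≤ nu μ U {v | v.2 = .c 0 .nil} + _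
    rw [nu_iUnion_lay μ mEn, nu_main, tsum_eq_zero_add' ENNReal.summable]
    simp only [nEn]
    rw [← add_assoc, add_comm]
    refine add_le_add hc ((measure_union_le _ _).trans ?_)
    rwa [measure_toMeasurable, hN, add_zero]
  · have hbad : μ (⋃ g : G, (fun x => g • x) ⁻¹' N) = 0 :=
      measure_iUnion_null fun g => by rw [measure_preimage_smul, hN]
    rw [← measure_univ (μ := μ), ← measure_sdiff_null hbad]
    refine measure_mono fun x hx => ?_
    obtain ⟨_, hs, g, hg, rfl⟩ := hS' x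
    obtain ⟨_, hs', g', hg', rfl⟩ := hS' (b • x)
    have h1 : g • x ∉ N := fun h => hx.2 (mem_iUnion.mpr ⟨g, h⟩)
    have h2 := gen Λ _ _ (hgen _ h1 (g' * b * g⁻¹))
    rw [mul_smul, inv_smul_smul, mul_smul] at h2
    exact ((((Geo.Conn.free (γ := γ) ⟨g, hg, rfl⟩).trans (link Λ _ (Or.inl hs)).symm).trans
      h2).trans (link Λ _ (Or.inl hs'))).trans (Geo.Conn.free (γ := γ) (Orb.symm ⟨g', hg', rfl⟩))

/-- The lower bound for the cost. -/
theorem lower (μ : Measure X) [IsProbabilityMeasure μ] [SMulInvariantMeasure G X μ]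
    (A F H Λ : Subgroup G) (a1 a2 b : G) (ha1 : a1 ∈ A) (ha2 : a2 ∈ A) (hne : a1 ≠ a2)
    (hHF : H ≤ F) (hHΛ : H ≤ Λ) (hb : b ∈ F)
    (hH : H ≤ Subgroup.closure ((A : Set G) ∪ {b * a2 * b * a1 * b}))
    (hF : F ≤ Subgroup.closure ((A : Set G) ∪ {b}))
    (hG : Subgroup.closure ((F : Set G) ∪ Λ) = ⊤) (hinf : (Λ : Set G).Infinite)
    (T1 : ∀ g, Red1 F H Λ g → g ∉ F) (T2 : ∀ s g, Red2 A b s g → g ∉ A)
    (gap : ∀ T, MeasurableSet T → 1 / 4 ≤ μ T → μ T ≤ 1 / 2 → (1 / 100 : ℝ≥0∞) ≤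
      μ (T \ (fun x => (a1 * b) • x) ⁻¹' T) + μ (T \ (fun x => (a2 * b) • x) ⁻¹' T)) :
    1 + 1 / 20000 ≤ Crest.Dynamics.actionCost G X μ := by
  refine le_sInf ?_
  rintro _ ⟨Φ, hΦ, rfl⟩
  by_contra hc
  obtain ⟨σ, hbud, h1⟩ := stage0 Λ hinf b Φ hΦ (not_le.mp hc).le
  have hd : (1 / 20000 + (1 / 100000 + 1 / 100000) : ℝ≥0∞) < 1 / 4000 := by
    rw [← ENNReal.toReal_lt_toReal (by simp) (by simp), ENNReal.toReal_add (by simp) (by simp),
      ENNReal.toReal_add (by simp) (by simp)]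
    norm_num
  have H2 : ∀ (σ : St G μ) (E1 E2 : Set (X × U)) (d : ℝ≥0∞), σ.Typed E1 E2 F Λ → d < 1 / 4000 →
      nu μ U σ.E ≤ nu μ U σ.W + d → μ {x | σ.Conn E1 H (x, σ.i0) (b • x, σ.i0)} ≤ 1 / 4 := by
    intro σ E1 E2 d ht hd hbud
    refine subdiv ((A : Set G) ∪ {b, b⁻¹}) ?_ (Or.inl A.one_mem) H b hd.ne_top
      (cellAdd ha1 ha2 hne hH T2 gap hd) σ ht.m1 ht.s1 (fun e he => (ht.l1 e he).mono
        (hF.trans (Subgroup.closure_mono (union_subset_union_right _ (by simp))))) hbud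
    rintro g (h | rfl | rfl)
    · exact Or.inl (A.inv_mem h)
    · simp
    · simp
  have := subdiv (c := 1 / 4) ((F : Set G) ∪ Λ) ?_ (Or.inl F.one_mem) Λ b hd.ne_top ?_ σ σ.E_meas
    subset_rfl (fun e _ => ?_) hbud
  · have h4 := h1.trans this
    norm_num at h4
  · rintro g (h | h)
    · exact Or.inl (F.inv_mem h)
    · exact Or.inr (Λ.inv_mem h)
  · intro σ' E' mE' sE' lab hbud'
    let E1 : Set (X × U) := {e | e ∈ E' ∧ Orb F (σ'.pt (σ'.en false e)) (σ'.pt (σ'.en true e))}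
    have m1 : MeasurableSet E1 := mE'.inter (Measurable.setOf (by fun_prop))
    have ht : σ'.Typed E1 (E' \ E1) F Λ := ⟨m1, mE'.diff m1, fun e he => sE' he.1,
      fun e he => sE' he.1, disjoint_sdiff_right, fun e he => he.2, fun e he => by
        obtain ⟨g, hg | hg, e'⟩ := lab e he.1
        · exact absurd ⟨he.1, g, hg, e'⟩ he.2
        · exact ⟨g, hg, e'⟩⟩
    have hm : Monotone fun k => {x | ∃ j ≤ k, Ch (σ'.Conn E1 H) (σ'.Conn (E' \ E1) Λ) j
        (x, σ'.i0) (b • x, σ'.i0)} := fun k k' h x ⟨j, h1, h2⟩ => ⟨j, h1.trans h, h2⟩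
    refine le_trans (measure_mono ?_) (hm.measure_iUnion.trans_le
      (iSup_le fun k => stage1 hHF hHΛ hb T1 _ _ H2 k σ' _ _ _ ht hd hbud'))
    intro x hx
    have : ∀ u v, σ'.Conn E' Λ u v → ∃ j, Ch (σ'.Conn E1 H) (σ'.Conn (E' \ E1) Λ) j u v := by
      intro u v h
      induction h using Relation.ReflTransGen.head_induction_on with
      | refl => exact ⟨0, .base Geo.Conn.refl⟩
      | head h _ ih =>
        obtain ⟨j, hj⟩ := ih
        rcases h with ⟨e, he, s, rfl, rfl⟩ | h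
        · by_cases h1 : e ∈ E1
          · exact ⟨j, hj.consP (fun _ _ _ => Geo.Conn.trans) (Geo.Conn.edge h1 _ _)⟩
          · exact ⟨j + 1, .step Geo.Conn.refl (Geo.Conn.edge (E := E' \ E1) ⟨he, h1⟩ _ _) hj⟩
        · exact ⟨j + 1, .step Geo.Conn.refl (Relation.ReflTransGen.single (Or.inr h)) hj⟩
    obtain ⟨j, hj⟩ := this _ _ hx
    exact mem_iUnion.mpr ⟨j, j, le_rfl, hj⟩
  · rw [hG]
    exact (((σ.pt_orb _).symm.trans (σ.en_orb false e).symm).trans (σ.en_orb true e)).trans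
      (σ.pt_orb _)

end Crest.Agent.H0291
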