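import Mathlib

set_option autoImplicit false
set_option linter.unusedSectionVars false
open MeasureTheory Set
open scoped ENNReal

namespace Crest.Agent.H0291

variable {G X : Type*} [Group G] [MulAction G X]

/-- `y` lies in the `K`-orbit of `x`. -/
def Orb (K : Subgroup G) (x y : X) : Prop := ∃ g ∈ K, y = g • x

theorem Orb.refl (K : Subgroup G) (x : X) : Orb K x x := ⟨1, K.one_mem, (one_smul _ _).symm⟩

theorem Orb.symm {K : Subgroup G} {x y : X} (h : Orb K x y) : Orb K y x := by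
  obtain ⟨g, hg, rfl⟩ := h
  exact ⟨g⁻¹, K.inv_mem hg, (inv_smul_smul _ _).symm⟩

theorem Orb.trans {K : Subgroup G} {x y z : X} (h : Orb K x y) (h' : Orb K y z) : Orb K x z := by
  obtain ⟨g, hg, rfl⟩ := h
  obtain ⟨g', hg', rfl⟩ := h'
  exact ⟨g' * g, K.mul_mem hg' hg, (mul_smul _ _ _).symm⟩

theorem Orb.mono {K K' : Subgroup G} (hK : K ≤ K') {x y : X} (h : Orb K x y) : Orb K' x y := by
  obtain ⟨g, hg, rfl⟩ := h
  exact ⟨g, hK hg, rfl⟩

theorem Orb.top {K : Subgroup G} {x y : X} (h : Orb K x y) : Orb (⊤ : Subgroup G) x y :=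
  h.mono le_top

theorem Orb.smul (g : G) (x : X) : Orb (⊤ : Subgroup G) x (g • x) := ⟨g, trivial, rfl⟩

variable [Countable G] [MeasurableSpace G] [DiscreteMeasurableSpace G]
  [MeasurableSpace X] [StandardBorelSpace X] [MeasurableSMul₂ G X]

@[fun_prop]
theorem meas_orb (K : Subgroup G) {Z : Type*} [MeasurableSpace Z] {f f' : Z → X}
    (hf : Measurable f) (hf' : Measurable f') : Measurable fun z => Orb K (f z) (f' z) := by
  unfold Orb
  fun_prop

section nu
variable {I J : Type*} [Countable I] [MeasurableSpace I] [MeasurableSingletonClass I]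
  [Countable J] [MeasurableSpace J] [MeasurableSingletonClass J]

/-- Existential quantification over an orbit is measurable. -/
theorem meas_ex (G : Type*) [Group G] [MulAction G X] [Countable G] [MeasurableSpace G]
    [DiscreteMeasurableSpace G] [MeasurableSMul₂ G X]
    {Z : Type*} [MeasurableSpace Z] {π : Z → X} (hπ : Measurable π)
    {P : Z → X × J → Prop} (hP : Measurable fun q : Z × (X × J) => P q.1 q.2)
    (ho : ∀ z b, P z b → Orb (⊤ : Subgroup G) (π z) b.1) : Measurable fun z => ∃ b, P z b := by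
  have : (fun z => ∃ b, P z b) = fun z => ∃ (g : G) (j : J), P z (g • π z, j) := by
    ext z
    constructor
    · rintro ⟨b, hb⟩
      obtain ⟨g, -, hg⟩ := ho z b hb
      exact ⟨g, b.2, by rw [← hg]; exact hb⟩
    · rintro ⟨g, j, h⟩
      exact ⟨_, h⟩
  rw [this]
  refine Measurable.exists fun g => Measurable.exists fun j => ?_
  exact hP.comp (f := fun z => (z, (g • π z, j))) (by fun_prop)

/-- Measurable selection along orbits. -/
theorem exists_sel (G : Type*) [Group G] [MulAction G X] [Countable G] [MeasurableSpace G]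
    [DiscreteMeasurableSpace G] [MeasurableSMul₂ G X]
    {Z : Type*} [MeasurableSpace Z] {π : Z → X} (hπ : Measurable π)
    {P : Z → X × J → Prop} (hP : Measurable fun q : Z × (X × J) => P q.1 q.2)
    (ho : ∀ z b, P z b → Orb (⊤ : Subgroup G) (π z) b.1) (h : ∀ z, ∃ b, P z b) :
    ∃ f : Z → X × J, Measurable f ∧ ∀ z, P z (f z) := by
  classical
  rcases isEmpty_or_nonempty Z with hZ | ⟨⟨z0⟩⟩
  · exact ⟨fun z => (h z).choose, measurable_of_empty _, fun z => (h z).choose_spec⟩
  have : Nonempty J := ⟨(h z0).choose.2⟩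
  obtain ⟨e, he⟩ := exists_surjective_nat (G × J)
  have h' : ∀ z, ∃ n, P z ((e n).1 • π z, (e n).2) := by
    intro z
    obtain ⟨b, hb⟩ := h z
    obtain ⟨g, -, hg⟩ := ho z b hb
    obtain ⟨n, hn⟩ := he (g, b.2)
    exact ⟨n, by rw [hn, ← hg]; exact hb⟩
  refine ⟨fun z => ((e (Nat.find (h' z))).1 • π z, (e (Nat.find (h' z))).2), ?_,
    fun z => Nat.find_spec (h' z)⟩
  refine Measurable.find (f := fun n z => ((e n).1 • π z, (e n).2))
    (p := fun n z => P z ((e n).1 • π z, (e n).2)) (fun n => by fun_prop) (fun n => ?_) h'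
  exact (hP.comp (f := fun z => (z, ((e n).1 • π z, (e n).2))) (by fun_prop)).setOf

/-- The measure `μ × counting` on `X × I`. -/
noncomputable def nu (μ : Measure X) (I : Type*) [MeasurableSpace I] : Measure (X × I) :=
  Measure.sum fun i => μ.map fun x => (x, i)

theorem nu_apply (μ : Measure X) {A : Set (X × I)} (hA : MeasurableSet A) :
    nu μ I A = ∑' i, μ {x | (x, i) ∈ A} := by
  rw [nu, Measure.sum_apply _ hA]
  congr 1
  ext i
  rw [Measure.map_apply (by fun_prop) hA]
  rfl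

variable (μ : Measure X) [SMulInvariantMeasure G X μ] [IsCancelSMul G X]

/-- Double counting (mass transport). -/
theorem dc (G : Type*) [Group G] [MulAction G X] [Countable G] [MeasurableSpace G]
    [DiscreteMeasurableSpace G] [MeasurableSMul₂ G X] [SMulInvariantMeasure G X μ]
    [IsCancelSMul G X] {A : Set (X × I)} {B : Set (X × J)} (hA : MeasurableSet A)
    (hB : MeasurableSet B) {ρ : X × I → X × J → Prop}
    (hρ : Measurable fun q : (X × I) × (X × J) => ρ q.1 q.2)
    (ho : ∀ a b, ρ a b → Orb (⊤ : Subgroup G) a.1 b.1) (k : ℕ)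
    (h1 : ∀ a ∈ A, ∃ s : Finset (X × J), s.card = k ∧ ∀ b ∈ s, b ∈ B ∧ ρ a b)
    (h2 : ∀ b ∈ B, ∀ a ∈ A, ∀ a' ∈ A, ρ a b → ρ a' b → a = a') :
    k * nu μ I A ≤ nu μ J B := by
  classical
  let R : I → G × J → Set X := fun i p =>
    {x | (x, i) ∈ A ∧ (p.1 • x, p.2) ∈ B ∧ ρ (x, i) (p.1 • x, p.2)}
  have hR : ∀ i p, MeasurableSet (R i p) := by
    intro i p
    refine (hA.preimage (f := fun x => (x, i)) (by fun_prop)).inter
      ((hB.preimage (f := fun x => (p.1 • x, p.2)) (by fun_prop)).inter ?_)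
    exact (hρ.comp (f := fun x => ((x, i), (p.1 • x, p.2))) (by fun_prop)).setOf
  have low : ∀ i, k * μ {x | (x, i) ∈ A} ≤ ∑' p, μ (R i p) := by
    intro i
    have hAi : MeasurableSet {x | (x, i) ∈ A} := hA.preimage (f := fun x => (x, i)) (by fun_prop)
    have e1 : ∑' p, μ (R i p) = ∫⁻ x, ∑' p, (R i p).indicator 1 x ∂μ := by
      rw [lintegral_tsum fun p => (measurable_one.indicator (hR i p)).aemeasurable]
      simp only [lintegral_indicator_one (hR i _)]
    rw [e1, ← lintegral_indicator_const hAi]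
    refine lintegral_mono fun x => ?_
    by_cases hx : (x, i) ∈ A
    · rw [indicator_of_mem (show x ∈ {x | (x, i) ∈ A} from hx)]
      obtain ⟨s, hs, hs'⟩ := h1 _ hx
      have : ∀ b : X × J, ∃ g : G, b ∈ s → b.1 = g • x := by
        intro b
        by_cases hb : b ∈ s
        · obtain ⟨g, -, hg⟩ := ho _ _ (hs' b hb).2
          exact ⟨g, fun _ => hg⟩
        · exact ⟨1, fun h => absurd h hb⟩
      choose γ hγ using this
      have hinj : Set.InjOn (fun b => (γ b, b.2)) s := by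
        intro b hb b' hb' h
        simp only [Prod.mk.injEq] at h
        ext
        · rw [hγ b hb, hγ b' hb', h.1]
        · exact h.2
      refine le_trans ?_ (ENNReal.sum_le_tsum (s.image fun b => (γ b, b.2)))
      rw [Finset.sum_image hinj, ← hs]
      refine le_of_eq ?_
      rw [Finset.card_eq_sum_ones]
      push_cast
      refine Finset.sum_congr rfl fun b hb => ?_
      rw [indicator_of_mem]
      · rfl
      · simp only [R, mem_ofPred_eq, ← hγ b hb]
        exact ⟨hx, hs' b hb⟩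
    · rw [indicator_of_notMem (show x ∉ {x | (x, i) ∈ A} from hx)]
      exact zero_le
  have up : ∀ j, ∑' p : I × G, μ (R p.1 (p.2, j)) ≤ μ {y | (y, j) ∈ B} := by
    intro j
    have e1 : ∀ p : I × G, μ (R p.1 (p.2, j)) = μ ((fun y => p.2⁻¹ • y) ⁻¹' R p.1 (p.2, j)) :=
      fun p => (measure_preimage_smul μ _ _).symm
    simp only [e1]
    rw [← measure_iUnion]
    · refine measure_mono (iUnion_subset fun p y hy => ?_)
      simpa [R] using hy.2.1
    · intro p p' hpp
      rw [Function.onFun, disjoint_left]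
      intro y hy hy'
      simp only [R, mem_preimage, mem_ofPred_eq, smul_inv_smul] at hy hy'
      have := h2 _ hy.2.1 _ hy.1 _ hy'.1 hy.2.2 hy'.2.2
      simp only [Prod.mk.injEq] at this
      apply hpp
      ext
      · exact this.2
      · exact inv_injective (IsCancelSMul.right_cancel _ _ _ this.1)
    · intro p
      exact (hR _ _).preimage (by fun_prop)
  rw [nu_apply μ hA, nu_apply μ hB, ← ENNReal.tsum_mul_left]
  calc ∑' i, k * μ {x | (x, i) ∈ A} ≤ ∑' i, ∑' p, μ (R i p) := ENNReal.tsum_le_tsum low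
    _ = ∑' j, ∑' p : I × G, μ (R p.1 (p.2, j)) := by
      simp only [ENNReal.tsum_prod']
      rw [ENNReal.tsum_comm (f := fun j i => ∑' g, μ (R i (g, j)))]
      congr 1
      ext i
      exact ENNReal.tsum_comm
    _ ≤ _ := ENNReal.tsum_le_tsum up

/-- Injection form of double counting. -/
theorem dc1 (G : Type*) [Group G] [MulAction G X] [Countable G] [MeasurableSpace G]
    [DiscreteMeasurableSpace G] [MeasurableSMul₂ G X] [SMulInvariantMeasure G X μ]
    [IsCancelSMul G X] {A : Set (X × I)} {B : Set (X × J)} (hA : MeasurableSet A)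
    (hB : MeasurableSet B) {ρ : X × I → X × J → Prop}
    (hρ : Measurable fun q : (X × I) × (X × J) => ρ q.1 q.2)
    (ho : ∀ a b, ρ a b → Orb (⊤ : Subgroup G) a.1 b.1)
    (h1 : ∀ a ∈ A, ∃ b ∈ B, ρ a b)
    (h2 : ∀ b ∈ B, ∀ a ∈ A, ∀ a' ∈ A, ρ a b → ρ a' b → a = a') :
    nu μ I A ≤ nu μ J B := by
  have := dc μ G hA hB hρ ho 1 (fun a ha => by
    obtain ⟨b, hb, h⟩ := h1 a ha
    exact ⟨{b}, by simp, by simpa using ⟨hb, h⟩⟩) h2
  simpa using this

/-- Small complete sections: `S0` has at most one point per class and `S` meets every class. -/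
theorem exists_section (G : Type*) [Group G] [MulAction G X] [Countable G] [MeasurableSpace G]
    [DiscreteMeasurableSpace G] [MeasurableSMul₂ G X]
    {V : Set (X × I)} (hV : MeasurableSet V) (hfin : nu μ I V ≠ ⊤)
    {r : X × I → X × I → Prop} (hr : Measurable fun q : (X × I) × (X × I) => r q.1 q.2)
    (ho : ∀ a b, r a b → Orb (⊤ : Subgroup G) a.1 b.1)
    (hrefl : ∀ a ∈ V, r a a) (hsymm : ∀ a b, r a b → r b a)
    (htrans : ∀ a b c, r a b → r b c → r a c) {ε : ℝ≥0∞} (hε : 0 < ε) :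
    ∃ S0 S : Set (X × I), MeasurableSet S0 ∧ MeasurableSet S ∧ S0 ⊆ S ∧ S ⊆ V ∧
      nu μ I (S \ S0) ≤ ε ∧ (∀ a ∈ V, ∃ s ∈ S, r a s) ∧
      ∀ s ∈ S0, ∀ s' ∈ S0, r s s' → s = s' := by
  have : DiscreteMeasurableSpace I := inferInstance
  have : StandardBorelSpace I := inferInstance
  let c : X × I → ℝ := fun a => Real.exp (embeddingReal (X × I) a)
  have hc : Measurable c := (measurableEmbedding_embeddingReal _).measurable.exp
  have hci : Function.Injective c :=
    Real.exp_injective.comp (measurableEmbedding_embeddingReal _).injective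
  have hc0 : ∀ a, 0 < c a := fun a => Real.exp_pos _
  let T : ℝ → Set (X × I) := fun δ => {a | a ∈ V ∧ ¬ ∃ b, b ∈ V ∧ r a b ∧ c b + δ < c a}
  have hT : ∀ δ, MeasurableSet (T δ) := by
    intro δ
    refine hV.inter (Measurable.setOf (Measurable.not ?_))
    refine meas_ex G (π := Prod.fst) measurable_fst ?_ fun z b h => ho _ _ h.2.1
    refine Measurable.and (hV.mem.comp measurable_snd) (hr.and ?_)
    exact (measurableSet_lt ((hc.comp measurable_snd).add_const δ) (hc.comp measurable_fst)).mem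
  have hanti : Antitone fun n : ℕ => T (1 / ((n : ℝ) + 1)) \ T 0 := by
    intro m n hmn a ha
    refine ⟨⟨ha.1.1, fun ⟨b, hb, hab, h⟩ => ha.1.2 ⟨b, hb, hab, lt_of_le_of_lt ?_ h⟩⟩, ha.2⟩
    have := Nat.one_div_le_one_div (α := ℝ) hmn
    linarith
  have hlim := tendsto_measure_iInter_atTop (μ := nu μ I)
    (fun n => ((hT _).diff (hT 0)).nullMeasurableSet) hanti
    ⟨0, ne_top_of_le_ne_top hfin (measure_mono fun a ha => ha.1.1)⟩
  have hempty : ⋂ n : ℕ, T (1 / ((n : ℝ) + 1)) \ T 0 = ∅ := by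
    rw [eq_empty_iff_forall_notMem]
    intro a ha
    rw [mem_iInter] at ha
    apply (ha 0).2
    refine ⟨(ha 0).1.1, fun ⟨b, hb, hab, h⟩ => ?_⟩
    obtain ⟨n, hn⟩ := exists_nat_one_div_lt (show 0 < c a - c b by linarith)
    exact (ha n).1.2 ⟨b, hb, hab, by linarith⟩
  rw [hempty, measure_empty] at hlim
  obtain ⟨n, hn⟩ := (hlim.eventually (ge_mem_nhds hε)).exists
  have hpos : (0 : ℝ) < 1 / ((n : ℝ) + 1) := Nat.one_div_pos_of_nat
  refine ⟨T 0, T (1 / ((n : ℝ) + 1)), hT _, hT _, ?_, fun a ha => ha.1, hn, ?_, ?_⟩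
  · exact fun a ha => ⟨ha.1, fun ⟨b, hb, hab, h⟩ => ha.2 ⟨b, hb, hab, by linarith⟩⟩
  · intro a ha
    have hne : (c '' {b | b ∈ V ∧ r a b}).Nonempty := ⟨_, a, ⟨ha, hrefl a ha⟩, rfl⟩
    have hbdd : BddBelow (c '' {b | b ∈ V ∧ r a b}) := ⟨0, by
      rintro _ ⟨b, -, rfl⟩; exact (hc0 b).le⟩
    obtain ⟨_, ⟨s, hs, rfl⟩, h⟩ := exists_lt_of_csInf_lt hne (lt_add_of_pos_right _ hpos)
    refine ⟨s, ⟨hs.1, fun ⟨b, hb, hsb, h'⟩ => ?_⟩, hs.2⟩
    have := csInf_le hbdd ⟨b, ⟨hb, htrans _ _ _ hs.2 hsb⟩, rfl⟩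
    linarith
  · intro s hs s' hs' h
    apply hci
    have h1 : ¬ c s' + 0 < c s := fun h' => hs.2 ⟨s', hs'.1, h, h'⟩
    have h2 : ¬ c s + 0 < c s' := fun h' => hs'.2 ⟨s, hs.1, hsymm _ _ h, h'⟩
    linarith

end nu

end Crest.Agent.H0291
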