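import Crest.Agent.H0291.LowCore

set_option autoImplicit false
set_option linter.unusedSectionVars false
open MeasureTheory Set
open scoped ENNReal

namespace Crest.Agent.H0291

variable {G X : Type*} [Group G] [MulAction G X] [MeasurableSpace X] [StandardBorelSpace X]
variable {μ : Measure X} {A : Subgroup G} {a1 a2 b : G}

theorem nu_unit (μ : Measure X) {D : Set X} (hD : MeasurableSet D) :
    nu μ Unit {p | p.1 ∈ D} = μ D := by
  rw [nu_apply μ (A := {p : X × Unit | p.1 ∈ D}) (hD.preimage measurable_fst)]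
  simp

variable [Countable G] [MeasurableSpace G] [DiscreteMeasurableSpace G] [MeasurableSMul₂ G X]
  [IsCancelSMul G X] [IsProbabilityMeasure μ] [SMulInvariantMeasure G X μ]

namespace St2

variable (σ : St2 μ A a1 a2 b)

def HM (t : Bool) : Set (X × (U × Bool)) := {h | ed h ∈ σ.C ∧ h.2.2 = t ∧ σ.M (σ.ve h)}
def H2 : Set (X × (U × Bool)) := {h | ed h ∈ σ.C ∧ ¬ σ.M (σ.ve h) ∧ ¬ σ.V3 (σ.ve h)}
def H3 : Set (X × (U × Bool)) := {h | ed h ∈ σ.C ∧ ¬ σ.M (σ.ve h) ∧ σ.V3 (σ.ve h)}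

theorem meas_HM (t : Bool) : MeasurableSet (σ.HM t) := by
  have hC := σ.meas_C.mem
  exact Measurable.setOf (by fun_prop)
theorem meas_H2 : MeasurableSet σ.H2 := by
  have hC := σ.meas_C.mem
  exact Measurable.setOf (by fun_prop)
theorem meas_H3 : MeasurableSet σ.H3 := by
  have hC := σ.meas_C.mem
  exact Measurable.setOf (by fun_prop)

theorem bud1 : nu μ _ (σ.HM false) + nu μ _ (σ.HM true) + nu μ _ σ.H2 + nu μ _ σ.H3 ≤
    2 * nu μ U σ.C := by
  have hC := σ.meas_C.mem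
  have side : ∀ t, nu μ _ {h : X × (U × Bool) | ed h ∈ σ.C ∧ h.2.2 = t} ≤ nu μ U σ.C := by
    intro t
    refine dc1 μ G (Measurable.setOf (by fun_prop)) σ.meas_C (ρ := fun h e => ed h = e)
      (by fun_prop) ?_ (fun a ha => ⟨_, ha.1, rfl⟩) ?_
    · rintro a _ rfl; exact Orb.refl _ _
    · rintro _ - a ha a' ha' rfl h
      rw [← hf_ed a, ← hf_ed a', h, ha.2, ha'.2]
  rw [← measure_union _ (σ.meas_HM true), ← measure_union _ σ.meas_H2,
    ← measure_union _ σ.meas_H3, two_mul]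
  · refine le_trans (measure_mono ?_) ((measure_union_le _ _).trans
      (add_le_add (side false) (side true)))
    intro h hh
    have : ed h ∈ σ.C := by
      rcases hh with ((h1 | h1) | h1) | h1 <;> exact h1.1
    cases hs : h.2.2
    · exact Or.inl ⟨this, hs⟩
    · exact Or.inr ⟨this, hs⟩
  · rw [disjoint_left]
    rintro h ((h1 | h1) | h1) h2
    · exact h2.2.1 h1.2.2
    · exact h2.2.1 h1.2.2
    · exact h1.2.2 h2.2.2
  · rw [disjoint_left]
    rintro h (h1 | h1) h2 <;> exact h2.2.1 h1.2.2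
  · rw [disjoint_left]
    intro h h1 h2
    have := h1.2.1.symm.trans h2.2.1
    simp at this

theorem bud2 (t : Bool) : 1 + μ (σ.Dt t) ≤ nu μ _ (σ.HM t) := by
  classical
  have mD := σ.meas_Dt t
  have mQ : MeasurableSet {h : X × (U × Bool) | σ.q (ed h) ∈ σ.Dt t} :=
    mD.preimage (f := fun h => σ.q (ed h)) (by fun_prop)
  have ho : ∀ (a : X × Unit) (h : X × (U × Bool)), σ.q (ed h) = a.1 →
      Orb (⊤ : Subgroup G) a.1 h.1 := fun a h e => e ▸ (σ.q_orb (ed h)).symm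
  have hu : ∀ (h : X × (U × Bool)) (a a' : X × Unit), σ.q (ed h) = a.1 → σ.q (ed h) = a'.1 →
      a = a' := fun h a a' e e' => Prod.ext (e.symm.trans e') rfl
  have h1 := dc μ G (A := {p : X × Unit | p.1 ∈ σ.Dt t}) (mD.preimage measurable_fst)
    ((σ.meas_HM t).inter mQ) (ρ := fun a h => σ.q (ed h) = a.1) (by fun_prop) ho 2
    (by
      rintro a ⟨e, c, qe, m, e', c', qe', m', hne⟩
      refine ⟨{hf e t, hf e' t}, Finset.card_pair (by simpa [hf_inj] using hne.symm), ?_⟩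
      have hD : a.1 ∈ σ.Dt t := ⟨e, c, qe, m, e', c', qe', m', hne⟩
      intro h hh
      simp only [Finset.mem_insert, Finset.mem_singleton] at hh
      rcases hh with rfl | rfl
      · exact ⟨⟨⟨c, rfl, m⟩, by simpa [qe] using hD⟩, qe⟩
      · exact ⟨⟨⟨c', rfl, m'⟩, by simpa [qe'] using hD⟩, qe'⟩)
    (fun h _ a _ a' _ => hu h a a')
  have h2 := dc1 μ G (A := {p : X × Unit | p.1 ∈ (σ.Dt t)ᶜ}) (mD.compl.preimage measurable_fst)
    ((σ.meas_HM t).diff mQ) (ρ := fun a h => σ.q (ed h) = a.1) (by fun_prop) ho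
    (by
      intro a ha
      have : ∃ e ∈ σ.C, σ.q e = a.1 ∧ σ.M (σ.en t e) := by
        cases t
        · obtain ⟨e0, c0, -, -, -, -, q0, -, -, m0, -⟩ := σ.cellC a.1
          exact ⟨e0, c0, q0, m0⟩
        · obtain ⟨-, -, -, -, e2, c2, -, -, q2, -, -, -, m2⟩ :=
            σ.cellC ((a1 * b)⁻¹ • (a2 * b)⁻¹ • a.1)
          exact ⟨e2, c2, by rw [q2, smul_inv_smul, smul_inv_smul], m2⟩
      obtain ⟨e, c, qe, m⟩ := this
      exact ⟨hf e t, ⟨⟨c, rfl, m⟩, by simpa [qe] using ha⟩, qe⟩)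
    (fun h _ a _ a' _ => hu h a a')
  rw [nu_unit μ mD] at h1
  rw [nu_unit μ mD.compl] at h2
  rw [← measure_inter_add_sdiff _ mQ]
  refine le_trans (le_of_eq ?_) (add_le_add h1 h2)
  rw [← prob_add_prob_compl (μ := μ) mD]
  push_cast
  ring

theorem bud3 : μ σ.D3 ≤ nu μ _ σ.H3 := by
  rw [← nu_unit μ σ.meas_D3]
  refine dc1 μ G (σ.meas_D3.preimage measurable_fst) σ.meas_H3
    (ρ := fun a h => σ.q (ed h) = a.1) (by fun_prop) (fun a h e => e ▸ (σ.q_orb (ed h)).symm) ?_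
    fun h _ a _ a' _ e e' => Prod.ext (e.symm.trans e') rfl
  rintro a ⟨h, c, qe, m, v⟩
  exact ⟨h, ⟨c, m, v⟩, qe⟩

theorem budget {d ε : ℝ≥0∞} (hd : d ≠ ⊤) (hε : 0 < ε)
    (hbud : nu μ U σ.E ≤ nu μ U σ.W + 1 + d) : μ σ.D ≤ 6 * (d + ε) := by
  classical
  have hC := σ.meas_C.mem
  have ho : ∀ v h, σ.N v (σ.ve h) → Orb (⊤ : Subgroup G) v.1 h.1 := fun v h hn =>
    hn.orb.trans (σ.ve_orb h).symm
  let V : Set (X × U) := {v | v ∈ σ.W ∧ ¬ σ.M v ∧ ∃ h, ed h ∈ σ.C ∧ σ.N v (σ.ve h)}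
  have mV : MeasurableSet V := σ.W_meas.inter (Measurable.setOf (Measurable.and (by fun_prop)
    (meas_ex G (π := Prod.fst) measurable_fst (by fun_prop) fun z u h => ho _ _ h.2)))
  obtain ⟨S0, S, mS0, mS, hS0S, hSV, hε', hS, hS0⟩ := exists_section μ G mV
    (ne_top_of_le_ne_top σ.W_fin (measure_mono fun v hv => hv.1)) (r := σ.N) (by fun_prop)
    (fun _ _ h => h.orb) (fun _ _ => N.refl) (fun _ _ => N.symm) (fun _ _ _ => N.trans) hε
  have m3 : MeasurableSet {v | σ.V3 v} := σ.meas_V3.setOf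
  have h2 := dc μ G (mS0.diff m3) σ.meas_H2 (ρ := fun v h => σ.N v (σ.ve h)) (by fun_prop) ho 2
    (by
      intro v hv
      obtain ⟨-, hm, h, c, n⟩ := hSV (hS0S hv.1)
      have hm' : ¬ σ.M (σ.ve h) := fun h' => hm (M.of n h')
      obtain ⟨h', hne, c', n'⟩ := val2 c hm'
      refine ⟨{h, h'}, Finset.card_pair hne.symm, ?_⟩
      intro k hk
      simp only [Finset.mem_insert, Finset.mem_singleton] at hk
      rcases hk with rfl | rfl
      · exact ⟨⟨c, hm', fun h3 => hv.2 (V3.of n h3)⟩, n⟩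
      · exact ⟨⟨c', fun h' => hm (M.of (n.trans n') h'), fun h3 => hv.2 (V3.of (n.trans n') h3)⟩,
          n.trans n'⟩)
    (fun h _ a ha a' ha' n n' => hS0 _ ha.1 _ ha'.1 (n.trans n'.symm))
  have h3 := dc μ G (mS0.inter m3) σ.meas_H3 (ρ := fun v h => σ.N v (σ.ve h)) (by fun_prop) ho 3
    (by
      intro v hv
      obtain ⟨-, hm, -⟩ := hSV (hS0S hv.1)
      have hv3 : σ.V3 v := hv.2
      obtain ⟨h1, c1, n1, h2, c2, n2, h3, c3, n3, d1, d2, d3⟩ := hv.2
      refine ⟨{h1, h2, h3}, Finset.card_eq_three.mpr ⟨_, _, _, d1, d2, d3, rfl⟩, ?_⟩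
      intro k hk
      simp only [Finset.mem_insert, Finset.mem_singleton] at hk
      have key : ∀ k, ed k ∈ σ.C → σ.N v (σ.ve k) → k ∈ σ.H3 ∧ σ.N v (σ.ve k) := fun k c n =>
        ⟨⟨c, fun h' => hm (M.of n h'), V3.of n.symm hv3⟩, n⟩
      rcases hk with rfl | rfl | rfl
      · exact key _ c1 n1
      · exact key _ c2 n2
      · exact key _ c3 n3)
    (fun h _ a ha a' ha' n n' => hS0 _ ha.1 _ ha'.1 (n.trans n'.symm))
  have hLk : σ.Lk ⊆ σ.E \ σ.C := fun e he =>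
    ⟨σ.Lk_sub he, fun hc => disjoint_left.mp σ.dis hc.1 he⟩
  have h5 := Geo.levitt μ (γ := σ.toGeo) (K := ⊤) (σ.E_meas.diff σ.meas_C) σ.W_meas
    (mS.union (s₂ := {v : X × U | v.2 = σ.i0}) (Measurable.setOf (by fun_prop))) (fun x => Or.inr rfl)
    (by
      intro w hw
      obtain ⟨y, hy⟩ := σ.conn w hw
      clear hw
      induction hy using Relation.ReflTransGen.head_induction_on with
      | refl => exact ⟨_, Or.inr rfl, Geo.Conn.refl⟩
      | @head u v h _ ih =>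
        obtain ⟨s, hs, ih⟩ := ih
        rcases h with ⟨e, he, t, rfl, rfl⟩ | h
        · by_cases hc : e ∈ σ.C
          · by_cases hm : σ.M (σ.en t e)
            · obtain ⟨z, hz⟩ := hm
              exact ⟨(z, σ.i0), Or.inr rfl, Geo.Conn.mono hLk le_top hz⟩
            · have hW : σ.en t e ∈ σ.W := by
                rcases σ.en_valid e he t with h | h
                · exact h
                · exact absurd ⟨(σ.en t e).1, by rw [← h]; exact N.refl⟩ hm
              obtain ⟨s', hs', n⟩ := hS _ ⟨hW, hm, hf e t, hc, N.refl⟩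
              exact ⟨s', Or.inl hs', Geo.Conn.mono hLk le_top n⟩
          · exact ⟨s, hs, (Geo.Conn.edge (E := σ.E \ σ.C) ⟨he, hc⟩ _ _).trans ih⟩
        · exact ⟨s, hs, Relation.ReflTransGen.head (Or.inr h) ih⟩)
  have hEfin : nu μ U σ.E ≠ ⊤ := ne_top_of_le_ne_top (by simp [σ.W_fin, hd]) hbud
  have hCE : σ.C ⊆ σ.E := fun e he => σ.B_sub he.1
  have h6 : nu μ U σ.C ≤ nu μ U S0 + 1 + (d + ε) := by
    have e1 : nu μ U σ.C + nu μ U (σ.E \ σ.C) = nu μ U σ.E := by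
      rw [← measure_inter_add_sdiff σ.E σ.meas_C, inter_eq_right.mpr hCE]
    have e2 : nu μ U σ.W ≤ nu μ U (σ.E \ σ.C) + (nu μ U S0 + ε) := by
      refine le_trans (measure_mono (t := (σ.W \ (S ∪ {v | v.2 = σ.i0})) ∪ (S0 ∪ S \ S0)) ?_)
        ((measure_union_le _ _).trans (add_le_add h5 ((measure_union_le _ _).trans
          (add_le_add le_rfl hε'))))
      intro w hw
      by_cases h1 : w ∈ S
      · by_cases h2 : w ∈ S0
        · exact Or.inr (Or.inl h2)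
        · exact Or.inr (Or.inr ⟨h1, h2⟩)
      · refine Or.inl ⟨hw, ?_⟩
        rintro (h | h)
        · exact h1 h
        · exact σ.W_main w.1 (by rw [← show w.2 = σ.i0 from h]; exact hw)
    refine ENNReal.le_of_add_le_add_right (a := nu μ U (σ.E \ σ.C))
      (ne_top_of_le_ne_top hEfin (measure_mono sdiff_subset)) ?_
    rw [e1]
    refine hbud.trans ((add_le_add (add_le_add e2 le_rfl) le_rfl).trans (le_of_eq ?_))
    ring
  have hS0fin : nu μ U S0 ≠ ⊤ :=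
    ne_top_of_le_ne_top σ.W_fin (measure_mono fun v hv => (hSV (hS0S hv)).1)
  have e3 : nu μ U (S0 ∩ {v | σ.V3 v}) + nu μ U (S0 \ {v | σ.V3 v}) = nu μ U S0 :=
    measure_inter_add_sdiff _ m3
  have hD : μ σ.D ≤ μ (σ.Dt false) + μ (σ.Dt true) + μ σ.D3 :=
    (measure_union_le _ _).trans (add_le_add (measure_union_le _ _) le_rfl)
  have b1 := σ.bud1
  have b2 := σ.bud2 false
  have b2' := σ.bud2 true
  have b3 := σ.bud3
  refine hD.trans (ENNReal.le_of_add_le_add_left (a := 6 * (nu μ U S0 + 1))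
    (ENNReal.mul_ne_top (by simp) (by simp [hS0fin])) ?_)
  push_cast at h2 h3
  calc 6 * (nu μ U S0 + 1) + (μ (σ.Dt false) + μ (σ.Dt true) + μ σ.D3)
      ≤ 6 * (nu μ U S0 + 1) + (3 * μ (σ.Dt false) + 3 * μ (σ.Dt true) + μ σ.D3) := by
        gcongr <;> exact le_mul_of_one_le_left' (by norm_num)
    _ = 3 * (1 + μ (σ.Dt false)) + 3 * (1 + μ (σ.Dt true)) +
          3 * (2 * nu μ U (S0 \ {v | σ.V3 v})) + (2 * (3 * nu μ U (S0 ∩ {v | σ.V3 v})) + μ σ.D3) := by
        rw [← e3]; ring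
    _ ≤ 3 * nu μ _ (σ.HM false) + 3 * nu μ _ (σ.HM true) + 3 * nu μ _ σ.H2 +
          (2 * nu μ _ σ.H3 + nu μ _ σ.H3) := by gcongr
    _ = 3 * (nu μ _ (σ.HM false) + nu μ _ (σ.HM true) + nu μ _ σ.H2 + nu μ _ σ.H3) := by ring
    _ ≤ 3 * (2 * (nu μ U S0 + 1 + (d + ε))) := by
        gcongr
        exact b1.trans (by gcongr)
    _ = _ := by ring

/-- The spectral gap excludes middle values of `μ T`. -/
theorem notMid (hne : a1 ≠ a2)
    (gap : ∀ T, MeasurableSet T → 1 / 4 ≤ μ T → μ T ≤ 1 / 2 → (1 / 100 : ℝ≥0∞) ≤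
      μ (T \ (fun x => (a1 * b) • x) ⁻¹' T) + μ (T \ (fun x => (a2 * b) • x) ⁻¹' T))
    (hD : μ σ.D ≤ 1 / 500) (h2 : μ σ.T ≤ 1 / 2) : μ σ.T < 1 / 4 := by
  by_contra h1
  have mT := σ.meas_T
  have hg := gap _ mT (not_lt.mp h1) h2
  let Tg := σ.T ∩ (fun x => (a1 * b) • x) ⁻¹' (σ.T ∩ (fun x => (a2 * b) • x) ⁻¹' σ.T)
  have mI : MeasurableSet (σ.T ∩ (fun x => (a2 * b) • x) ⁻¹' σ.T) :=
    mT.inter (mT.preimage (by fun_prop))
  have mTg : MeasurableSet Tg := mT.inter (mI.preimage (by fun_prop))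
  have k1 : μ (σ.T \ Tg) ≤ 1 / 500 + 1 / 500 := by
    refine le_trans (measure_mono (t := σ.D ∪ (fun x => (a1 * b) • x) ⁻¹' σ.D) ?_)
      ((measure_union_le _ _).trans (add_le_add hD (by rwa [measure_preimage_smul])))
    intro x hx
    by_contra hn
    simp only [mem_union, not_or] at hn
    exact hx.2 ⟨hx.1, claim1 hne hx.1 hn.1 hn.2⟩
  have k2 : μ (σ.T \ (fun x => (a1 * b) • x) ⁻¹' σ.T) ≤ μ (σ.T \ Tg) :=
    measure_mono fun x hx => ⟨hx.1, fun h => hx.2 h.2.1⟩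
  have k3 : μ (σ.T \ (fun x => (a2 * b) • x) ⁻¹' σ.T) ≤ μ (σ.T \ Tg) := by
    have e1 : σ.T \ (fun x => (a2 * b) • x) ⁻¹' σ.T =
        σ.T \ (σ.T ∩ (fun x => (a2 * b) • x) ⁻¹' σ.T) := by
      ext x; simp
    rw [e1, measure_sdiff inter_subset_left mI.nullMeasurableSet (measure_ne_top _ _),
      measure_sdiff inter_subset_left mTg.nullMeasurableSet (measure_ne_top _ _)]
    refine tsub_le_tsub_left ?_ _
    rw [← measure_preimage_smul μ (a1 * b) (σ.T ∩ (fun x => (a2 * b) • x) ⁻¹' σ.T)]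
    exact measure_mono inter_subset_right
  have : (1 / 100 : ℝ≥0∞) ≤ (1 / 500 + 1 / 500) + (1 / 500 + 1 / 500) :=
    hg.trans (add_le_add (k2.trans k1) (k3.trans k1))
  revert this
  rw [← ENNReal.toReal_le_toReal (by simp) (by simp), ENNReal.toReal_add (by simp) (by simp),
    ENNReal.toReal_add (by simp) (by simp)]
  norm_num

end St2

end Crest.Agent.H0291
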