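import Crest.Agent.H0291.LowPath

set_option autoImplicit false
set_option linter.unusedSectionVars false
open MeasureTheory Set
open scoped ENNReal

namespace Crest.Agent.H0291

variable {G X : Type*} [Group G] [MulAction G X] [MeasurableSpace X] [StandardBorelSpace X]
variable {μ : Measure X} {A : Subgroup G} {a1 a2 b : G}

theorem St2.path_of_conn {σ : St2 μ A a1 a2 b} {u v : X × U}
    (h : σ.Conn (σ.B ∪ σ.Lk) A u v) : ∃ l, σ.IsPath u l v := by
  induction h using Relation.ReflTransGen.head_induction_on with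
  | refl => exact ⟨[], .nil St2.N.refl⟩
  | head h _ ih =>
    obtain ⟨l, hl⟩ := ih
    rcases h with ⟨e, he | he, s, rfl, rfl⟩ | h
    · exact ⟨hf e s :: l, .cons he St2.N.refl hl⟩
    · exact ⟨l, hl.pre (Geo.Conn.edge he _ _)⟩
    · exact ⟨l, hl.pre (Relation.ReflTransGen.single (Or.inr h))⟩

def cPt (γ : Geo G X) (a1 b : G) : X × U → X
  | (x, .nil) => x
  | (x, .c 0 j) => γ.pt (x, j)
  | (x, .c 1 _) => b • x
  | (x, .c (_ + 2) _) => b • (a1 * b) • x

def cEn (γ : Geo G X) (sw : X × U → Bool) (w : G) (s : Bool) : X × U → X × U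
  | (x, .nil) => (x, .nil)
  | (x, .c 0 j) => old (γ.en (xor (sw (x, j)) s) (x, j))
  | (x, .c 1 _) => if s then (x, .c 1 .nil) else (x, .c 0 γ.i0)
  | (x, .c 2 _) => if s then (x, .c 2 .nil) else (x, .c 1 .nil)
  | (x, .c (_ + 3) _) => if s then (w • x, .c 0 γ.i0) else (x, .c 2 .nil)

def cQ (γ : Geo G X) (sw : X × U → Bool) (a1 a2 b : G) : X × U → X
  | (x, .nil) => x
  | (x, .c 0 j) => γ.pt (γ.en (sw (x, j)) (x, j))
  | (x, .c 1 _) => x
  | (x, .c 2 _) => (a1 * b) • x
  | (x, .c (_ + 3) _) => (a2 * b) • (a1 * b) • x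

theorem Geo.meas_en' (γ : Geo G X) {Z : Type*} [MeasurableSpace Z] {s : Z → Bool} {f : Z → X × U}
    (hs : Measurable s) (hf : Measurable f) : Measurable fun z => γ.en (s z) (f z) :=
  γ.meas_ve.comp (f := fun z => ((f z).1, ((f z).2, s z))) (by fun_prop)

variable [Countable G] [MeasurableSpace G] [DiscreteMeasurableSpace G] [MeasurableSMul₂ G X]
  [IsCancelSMul G X] [IsProbabilityMeasure μ] [SMulInvariantMeasure G X μ]

def cGeo (γ : Geo G X) (sw : X × U → Bool) (msw : Measurable sw) (a1 b w : G) : Geo G X where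
  i0 := .c 0 γ.i0
  pt := cPt γ a1 b
  en := cEn γ sw w
  pt_meas := by
    refine measurable_from_prod_countable_left fun j => ?_
    rcases j with _ | ⟨_ | _ | k, j⟩ <;> simp only [cPt] <;> fun_prop
  en_meas s := by
    refine measurable_from_prod_countable_left fun j => ?_
    rcases j with _ | ⟨_ | _ | _ | k, j⟩ <;> simp only [cEn]
    · fun_prop
    · exact meas_old.comp (γ.meas_en' ((Measurable.of_discrete (f := fun t => xor t s)).comp
        (by fun_prop)) (by fun_prop))
    all_goals cases s <;> simp <;> fun_prop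
  pt_orb v := by
    rcases v with ⟨x, _ | ⟨_ | _ | k, j⟩⟩
    · exact Orb.refl _ _
    · exact γ.pt_orb (x, j)
    · exact Orb.smul _ _
    · exact (Orb.smul _ _).trans (Orb.smul _ _)
  en_orb s e := by
    rcases e with ⟨x, _ | ⟨_ | _ | _ | k, j⟩⟩
    · exact Orb.refl _ _
    · exact γ.en_orb _ (x, j)
    · cases s <;> exact Orb.refl _ _
    · cases s <;> exact Orb.refl _ _
    · cases s
      · exact Orb.refl _ _
      · exact Orb.smul _ _
  pt_main := γ.pt_main

theorem cellAdd {H : Subgroup G} (ha1 : a1 ∈ A) (ha2 : a2 ∈ A) (hne : a1 ≠ a2)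
    (hH : H ≤ Subgroup.closure ((A : Set G) ∪ {b * a2 * b * a1 * b}))
    (T2 : ∀ s g, Red2 A b s g → g ∉ A)
    (gap : ∀ T, MeasurableSet T → 1 / 4 ≤ μ T → μ T ≤ 1 / 2 → (1 / 100 : ℝ≥0∞) ≤
      μ (T \ (fun x => (a1 * b) • x) ⁻¹' T) + μ (T \ (fun x => (a2 * b) • x) ⁻¹' T))
    {d : ℝ≥0∞} (hd : d < 1 / 4000) (σ : St G μ) (E' : Set (X × U)) (mE' : MeasurableSet E')
    (sE' : E' ⊆ σ.E)
    (lab : ∀ e ∈ E', ∃ g ∈ (A : Set G) ∪ {b, b⁻¹}, σ.pt (σ.en true e) = g • σ.pt (σ.en false e))
    (hbud : nu μ U σ.E ≤ nu μ U σ.W + d) :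
    μ {x | σ.Conn E' H (x, σ.i0) (b • x, σ.i0)} ≤ 1 / 4 := by
  classical
  let sw : X × U → Bool := fun e => decide (σ.pt (σ.en true e) ≠ b • σ.pt (σ.en false e))
  have msw : Measurable sw := by
    refine measurable_to_bool ?_
    have : sw ⁻¹' {true} = {e | σ.pt (σ.en true e) ≠ b • σ.pt (σ.en false e)} := by
      ext e; simp [sw]
    rw [this]
    exact Measurable.setOf (by fun_prop)
  let γ := cGeo σ.toGeo sw msw a1 b (b * a2 * b * a1 * b)
  let L0 : Set (X × U) := {e | e ∈ E' ∧ Orb A (σ.pt (σ.en false e)) (σ.pt (σ.en true e))}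
  have mL0 : MeasurableSet L0 := mE'.inter (Measurable.setOf (by fun_prop))
  let Z : ℕ → Set (X × U) := fun k => {v | v.2 = U.c k .nil}
  have mZ : ∀ k, MeasurableSet (Z k) := fun k => Measurable.setOf (by fun_prop)
  have lift : ∀ (D D' : Set (X × U)) (K K' : Subgroup G), lay 0 D ⊆ D' →
      (∀ x y, Orb K x y → γ.Conn D' K' (x, γ.i0) (y, γ.i0)) →
      ∀ u v, σ.Conn D K u v → γ.Conn D' K' (old u) (old v) := by
    intro D D' K K' hD hK u v h
    refine Geo.Conn.lift (γ := σ.toGeo) (r := γ.Conn D' K') (fun _ => Geo.Conn.refl)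
      (fun _ _ => Geo.Conn.symm) (fun _ _ _ => Geo.Conn.trans) old (fun e he => ?_) hK h
    have := Geo.Conn.edge (γ := γ) (K := K') (e := old e) (hD (mem_lay.mpr ⟨rfl, he⟩))
      (sw e) (!sw e)
    have e1 : ∀ t, γ.en t (old e) = old (σ.en (xor (sw e) t) e) := fun t => rfl
    simpa [e1] using this
  have oldV : ∀ v, σ.Valid v → old v ∈ lay 0 σ.W ∪ Z 1 ∪ Z 2 ∨ (old v).2 = γ.i0 := by
    rintro v (h | h)
    · exact Or.inl (Or.inl (Or.inl (mem_lay.mpr ⟨rfl, h⟩)))
    · exact Or.inr (by simp only [old, h]; rfl)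
  have hW : nu μ U (lay 0 σ.W ∪ Z 1 ∪ Z 2) = nu μ U σ.W + 1 + 1 := by
    rw [measure_union _ (mZ 2), measure_union _ (mZ 1), nu_lay μ σ.W_meas, nu_main, nu_main]
    · rw [disjoint_left]
      intro e he
      obtain ⟨x, j, rfl, -⟩ := lay_cases he
      simp [Z]
    · rw [disjoint_left]
      rintro e (he | he)
      · obtain ⟨x, j, rfl, -⟩ := lay_cases he
        simp [Z]
      · simp only [Z, mem_ofPred_eq] at he ⊢
        simp [he]
  have laymono : ∀ {D D' : Set (X × U)}, D ⊆ D' → lay 0 D ⊆ lay 0 D' := by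
    intro D D' h e he
    obtain ⟨x, j, rfl, h'⟩ := lay_cases he
    exact mem_lay.mpr ⟨rfl, h h'⟩
  let σ' : St2 μ A a1 a2 b :=
    { toGeo := γ
      W := lay 0 σ.W ∪ Z 1 ∪ Z 2
      E := lay 0 σ.E ∪ (Z 1 ∪ Z 2 ∪ Z 3)
      W_meas := ((meas_lay σ.W_meas).union (mZ 1)).union (mZ 2)
      E_meas := (meas_lay σ.E_meas).union (((mZ 1).union (mZ 2)).union (mZ 3))
      W_main := by
        rintro x ((h | h) | h)
        · exact σ.W_main x (mem_lay.mp h).2
        · cases h
        · cases h
      W_fin := by rw [hW]; simp [σ.W_fin]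
      en_valid := by
        rintro ⟨x, j⟩ (he | (he | he) | he) s
        · obtain ⟨x, j, e, h⟩ := lay_cases he
          rw [e]
          exact oldV _ (σ.en_valid _ h _)
        · cases he
          cases s
          · exact Or.inr rfl
          · exact Or.inl (Or.inl (Or.inr rfl))
        · cases he
          cases s
          · exact Or.inl (Or.inl (Or.inr rfl))
          · exact Or.inl (Or.inr rfl)
        · cases he
          cases s
          · exact Or.inl (Or.inr rfl)
          · exact Or.inr rfl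
      conn := by
        rintro ⟨x, j⟩ ((h | h) | h)
        · obtain ⟨x, j, e, h⟩ := lay_cases h
          rw [e]
          obtain ⟨y, hy⟩ := σ.conn _ h
          exact ⟨y, lift _ _ _ _ subset_union_left (fun _ _ h => Geo.Conn.free h) _ _ hy⟩
        · cases h
          exact ⟨x, Geo.Conn.edge (γ := γ) (e := (x, .c 1 .nil)) (Or.inr (Or.inl (Or.inl rfl)))
            true false⟩
        · cases h
          exact ⟨_, Geo.Conn.edge (γ := γ) (e := (x, .c 3 .nil)) (Or.inr (Or.inr rfl))
            false true⟩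
      B := lay 0 (E' \ L0) ∪ (Z 1 ∪ Z 2 ∪ Z 3)
      Lk := lay 0 L0
      q := cQ σ.toGeo sw a1 a2 b
      B_meas := (meas_lay (mE'.diff mL0)).union (((mZ 1).union (mZ 2)).union (mZ 3))
      Lk_meas := meas_lay mL0
      q_meas := by
        refine measurable_from_prod_countable_left fun j => ?_
        rcases j with _ | ⟨_ | _ | _ | k, j⟩ <;> simp only [cQ]
        · fun_prop
        · exact σ.pt_meas.comp (σ.meas_en' (by fun_prop) (by fun_prop))
        all_goals fun_prop
      B_sub := union_subset_union_left _ (laymono fun e he => sE' he.1)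
      Lk_sub := (laymono fun e he => sE' he.1).trans subset_union_left
      dis := by
        rw [disjoint_right]
        intro e he
        obtain ⟨x, j, rfl, h⟩ := lay_cases he
        simp [Z, h]
      q_orb := by
        rintro ⟨x, _ | ⟨_ | _ | _ | k, j⟩⟩
        · exact Orb.refl _ _
        · exact (σ.en_orb _ (x, j)).trans (σ.pt_orb _)
        · exact Orb.refl _ _
        · exact Orb.smul _ _
        · exact (Orb.smul _ _).trans (Orb.smul _ _)
      lk := by
        intro e he
        obtain ⟨x, j, rfl, h⟩ := lay_cases he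
        show Orb A (σ.pt (σ.en (xor (sw (x, j)) false) (x, j)))
          (σ.pt (σ.en (xor (sw (x, j)) true) (x, j)))
        cases sw (x, j)
        · exact h.2
        · exact h.2.symm
      bq := by
        rintro ⟨x, j⟩ (he | (he | he) | he) s
        · obtain ⟨x, j, e, h⟩ := lay_cases he
          rw [e]
          show Orb A (if s then b • σ.pt (σ.en (sw (x, j)) (x, j)) else σ.pt (σ.en (sw (x, j)) (x, j)))
            (σ.pt (σ.en (xor (sw (x, j)) s) (x, j)))
          cases s
          · simp only [Bool.xor_false]; exact Orb.refl _ _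
          · cases hs : sw (x, j)
            · have : σ.pt (σ.en true (x, j)) = b • σ.pt (σ.en false (x, j)) := by simpa [sw] using hs
              simp only [if_true, Bool.false_xor, this]
              exact Orb.refl _ _
            · have h1 : σ.pt (σ.en true (x, j)) ≠ b • σ.pt (σ.en false (x, j)) := by
                simpa [sw] using hs
              obtain ⟨g, hg | rfl | rfl, e⟩ := lab _ h.1
              · exact absurd ⟨h.1, g, hg, e⟩ h.2
              · exact absurd e h1
              · simp only [if_true, Bool.xor_self, e, smul_inv_smul]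
                exact Orb.refl _ _
        · cases he
          cases s
          · exact ⟨1, A.one_mem, (σ.pt_main x).trans (one_smul _ _).symm⟩
          · exact Orb.refl A (b • x)
        · cases he
          cases s
          · exact Orb.symm ⟨a1, ha1, mul_smul _ _ _⟩
          · exact Orb.refl _ _
        · cases he
          cases s
          · exact Orb.symm ⟨a2, ha2, mul_smul _ _ _⟩
          · refine ⟨1, A.one_mem, (σ.pt_main _).trans ?_⟩
            show (b * a2 * b * a1 * b) • x = (1 : G) • b • (a2 * b) • (a1 * b) • x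
            simp only [one_smul, mul_smul]
      cell := fun y => ⟨(y, .c 1 .nil), Or.inr (Or.inl (Or.inl rfl)), (y, .c 2 .nil),
        Or.inr (Or.inl (Or.inr rfl)), (y, .c 3 .nil), Or.inr (Or.inr rfl), rfl, rfl, rfl,
        ⟨y, Geo.Conn.refl⟩, Geo.Conn.refl, Geo.Conn.refl, _, Geo.Conn.refl⟩ }
  have hb' : nu μ U σ'.E ≤ nu μ U σ'.W + 1 + d := by
    show nu μ U (lay 0 σ.E ∪ (Z 1 ∪ Z 2 ∪ Z 3)) ≤ nu μ U (lay 0 σ.W ∪ Z 1 ∪ Z 2) + 1 + d
    rw [hW]
    calc _ ≤ nu μ U (lay 0 σ.E) + (nu μ U (Z 1) + nu μ U (Z 2) + nu μ U (Z 3)) :=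
          (measure_union_le _ _).trans (add_le_add le_rfl ((measure_union_le _ _).trans
            (add_le_add (measure_union_le _ _) le_rfl)))
      _ ≤ nu μ U σ.W + d + (1 + 1 + 1) := by
        rw [nu_lay μ σ.E_meas, nu_main, nu_main, nu_main]; gcongr
      _ = _ := by ring
  have hT : μ σ'.T < 1 / 4 := by
    refine lt_of_le_of_lt ((measure_mono ?_).trans (St2.D_small hd σ' hb')) ?_
    · rintro x ⟨e, he, hq, hm⟩
      by_contra hD
      have hc : (x, U.c 1 .nil) ∈ σ'.C := St2.cell_core (e1 := (x, .c 2 .nil))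
        (e2 := (x, .c 3 .nil)) (Or.inr (Or.inl (Or.inl rfl))) (Or.inr (Or.inl (Or.inr rfl)))
        (Or.inr (Or.inr rfl)) ⟨x, St2.N.refl⟩ St2.N.refl St2.N.refl ⟨_, St2.N.refl⟩
      obtain rfl := St2.uniq hD hc (St2.T_core he hm) rfl hq ⟨x, St2.N.refl⟩ (hm false)
      obtain ⟨z, hz⟩ := hm true
      have := Geo.Conn.lift (γ := γ) (r := Iff) (fun _ => Iff.rfl) (fun _ _ => Iff.symm)
        (fun _ _ _ => Iff.trans) (fun v => v.2 = U.c 1 .nil) ?_ (fun _ _ _ => Iff.rfl) hz
      · cases this.mp rfl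
      · intro e he
        obtain ⟨x, j, rfl, h⟩ := lay_cases he
        exact iff_of_false (fun h => by cases h) (fun h => by cases h)
    · rw [← ENNReal.toReal_lt_toReal (by simp) (by simp)]
      norm_num
  have hm : Monotone fun k => {x | x ∈ σ'.T ∨ ∃ l : List (X × (U × Bool)), l.length < k ∧
      σ'.IsPath (x, σ'.i0) l (b • x, σ'.i0)} := by
    rintro k k' h x (hx | ⟨l, h1, h2⟩)
    · exact Or.inl hx
    · exact Or.inr ⟨l, h1.trans_le h, h2⟩
  refine le_trans (measure_mono ?_) (hm.measure_iUnion.trans_le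
    (iSup_le fun k => St2.stage2 hne T2 gap hd k σ' hb' hT))
  intro x hx
  have := lift E' (σ'.B ∪ σ'.Lk) H A ?_ ?_ _ _ hx
  · obtain ⟨l, hl⟩ := St2.path_of_conn (σ := σ') this
    exact mem_iUnion.mpr ⟨l.length + 1, Or.inr ⟨l, by omega, hl⟩⟩
  · intro e he
    obtain ⟨x, j, rfl, h⟩ := lay_cases he
    by_cases h' : (x, j) ∈ L0
    · exact Or.inr (mem_lay.mpr ⟨rfl, h'⟩)
    · exact Or.inl (Or.inl (mem_lay.mpr ⟨rfl, h, h'⟩))
  · rintro x _ ⟨g, hg, rfl⟩
    have hg' := hH hg
    clear hg
    induction hg' using Subgroup.closure_induction generalizing x with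
    | mem g hg =>
      rcases hg with hg | rfl
      · exact Geo.Conn.free ⟨g, hg, rfl⟩
      · exact ((Geo.Conn.edge (γ := γ) (e := (x, .c 1 .nil))
          (Or.inl (Or.inr (Or.inl (Or.inl rfl)))) false true).trans
          (Geo.Conn.edge (γ := γ) (e := (x, .c 2 .nil))
          (Or.inl (Or.inr (Or.inl (Or.inr rfl)))) false true)).trans
          (Geo.Conn.edge (γ := γ) (e := (x, .c 3 .nil))
          (Or.inl (Or.inr (Or.inr rfl))) false true)
    | one => rw [one_smul]; exact Geo.Conn.refl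
    | mul g g' _ _ ih ih' => rw [mul_smul]; exact (ih' x).trans (ih _)
    | inv g _ ih => simpa using (ih (g⁻¹ • x)).symm

end Crest.Agent.H0291
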