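import Crest.Agent.H0291.LowSub

set_option autoImplicit false
set_option linter.unusedSectionVars false
open MeasureTheory Set
open scoped ENNReal

namespace Crest.Agent.H0291

variable {G X : Type*} [Group G] [MulAction G X] [MeasurableSpace X] [StandardBorelSpace X]

/-- The edge of a half-edge. -/
def ed (h : X × (U × Bool)) : X × U := (h.1, h.2.1)
/-- The opposite half-edge. -/
def opp (h : X × (U × Bool)) : X × (U × Bool) := (h.1, (h.2.1, !h.2.2))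
/-- The half-edge of `e` on side `s`. -/
def hf (e : X × U) (s : Bool) : X × (U × Bool) := (e.1, (e.2, s))

@[simp] theorem ed_opp (h : X × (U × Bool)) : ed (opp h) = ed h := rfl
@[simp] theorem opp_opp (h : X × (U × Bool)) : opp (opp h) = h := by simp [opp]
@[simp] theorem ed_hf (e : X × U) (s : Bool) : ed (hf e s) = e := rfl
@[simp] theorem opp_hf (e : X × U) (s : Bool) : opp (hf e s) = hf e (!s) := rfl
@[simp] theorem sd_hf (e : X × U) (s : Bool) : (hf e s).2.2 = s := rfl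
@[simp] theorem sd_opp (h : X × (U × Bool)) : (opp h).2.2 = !h.2.2 := rfl
theorem hf_ed (h : X × (U × Bool)) : hf (ed h) h.2.2 = h := rfl
theorem hf_inj {e e' : X × U} {s s' : Bool} : hf e s = hf e' s' ↔ e = e' ∧ s = s' := by
  constructor
  · intro h
    exact ⟨congrArg ed h, congrArg (fun h => h.2.2) h⟩
  · rintro ⟨rfl, rfl⟩; rfl

@[fun_prop] theorem meas_ed : Measurable (ed : X × (U × Bool) → X × U) := by
  unfold ed; fun_prop
@[fun_prop] theorem meas_opp : Measurable (opp : X × (U × Bool) → X × (U × Bool)) := by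
  unfold opp
  exact measurable_fst.prodMk ((Measurable.of_discrete
    (f := fun p : U × Bool => (p.1, !p.2))).comp measurable_snd)
@[fun_prop] theorem meas_hf (s : Bool) : Measurable (fun e : X × U => hf e s) := by
  unfold hf; fun_prop

/-- The vertex of a half-edge. -/
def Geo.ve (γ : Geo G X) (h : X × (U × Bool)) : X × U := γ.en h.2.2 (ed h)

@[simp] theorem Geo.ve_hf (γ : Geo G X) (e : X × U) (s : Bool) : γ.ve (hf e s) = γ.en s e := rfl

@[fun_prop] theorem Geo.meas_ve (γ : Geo G X) : Measurable γ.ve := by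
  have : γ.ve = fun h => if h.2.2 = true then γ.en true (ed h) else γ.en false (ed h) := by
    ext1 h
    unfold Geo.ve
    cases h.2.2 <;> simp
  rw [this]
  exact Measurable.ite (Measurable.setOf (by fun_prop)) (by fun_prop) (by fun_prop)

theorem Geo.ve_orb (γ : Geo G X) (h : X × (U × Bool)) : Orb (⊤ : Subgroup G) h.1 (γ.ve h).1 :=
  γ.en_orb _ (ed h)

/-- States of stage 2. -/
structure St2 (μ : Measure X) (A : Subgroup G) (a1 a2 b : G) extends St G μ where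
  B : Set (X × U)
  Lk : Set (X × U)
  q : X × U → X
  B_meas : MeasurableSet B
  Lk_meas : MeasurableSet Lk
  q_meas : Measurable q
  B_sub : B ⊆ E
  Lk_sub : Lk ⊆ E
  dis : Disjoint B Lk
  q_orb : ∀ e, Orb (⊤ : Subgroup G) e.1 (q e)
  lk : ∀ e ∈ Lk, Orb A (pt (en false e)) (pt (en true e))
  bq : ∀ e ∈ B, ∀ s, Orb A (if s then b • q e else q e) (pt (en s e))
  cell : ∀ y, ∃ e0 ∈ B, ∃ e1 ∈ B, ∃ e2 ∈ B, q e0 = y ∧ q e1 = (a1 * b) • y ∧
    q e2 = (a2 * b) • (a1 * b) • y ∧ (∃ z, toGeo.Conn Lk A (en false e0) (z, i0)) ∧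
    toGeo.Conn Lk A (en true e0) (en false e1) ∧ toGeo.Conn Lk A (en true e1) (en false e2) ∧
    ∃ z, toGeo.Conn Lk A (en true e2) (z, i0)

attribute [fun_prop] St2.q_meas

variable {μ : Measure X} {A : Subgroup G} {a1 a2 b : G}

namespace St2

variable (σ : St2 μ A a1 a2 b)

/-- Same node. -/
def N (u v : X × U) : Prop := σ.Conn σ.Lk A u v
/-- Main node. -/
def M (v : X × U) : Prop := ∃ z, σ.N v (z, σ.i0)

def SupN : ℕ → X × (U × Bool) → Prop
  | 0, h => σ.M (σ.ve h)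
  | n + 1, h => σ.M (σ.ve h) ∨
      ∃ h', h' ≠ h ∧ ed h' ∈ σ.B ∧ σ.N (σ.ve h) (σ.ve h') ∧ SupN n (opp h')

def Sup (h : X × (U × Bool)) : Prop := ∃ n, σ.SupN n h

/-- Core edges. -/
def C : Set (X × U) := {e | e ∈ σ.B ∧ ∀ s, σ.Sup (hf e s)}

def T : Set X := {x | ∃ e, e ∈ σ.B ∧ σ.q e = x ∧ ∀ s, σ.M (σ.en s e)}

def Dt (t : Bool) : Set X := {x | ∃ e, e ∈ σ.C ∧ σ.q e = x ∧ σ.M (σ.en t e) ∧
  ∃ e', e' ∈ σ.C ∧ σ.q e' = x ∧ σ.M (σ.en t e') ∧ e' ≠ e}

/-- Vertices whose node has three core half-edges. -/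
def V3 (v : X × U) : Prop := ∃ h1, ed h1 ∈ σ.C ∧ σ.N v (σ.ve h1) ∧
  ∃ h2, ed h2 ∈ σ.C ∧ σ.N v (σ.ve h2) ∧ ∃ h3, ed h3 ∈ σ.C ∧ σ.N v (σ.ve h3) ∧
    h1 ≠ h2 ∧ h1 ≠ h3 ∧ h2 ≠ h3

def D3 : Set X := {x | ∃ h, ed h ∈ σ.C ∧ σ.q (ed h) = x ∧ ¬ σ.M (σ.ve h) ∧ σ.V3 (σ.ve h)}

def D : Set X := σ.Dt false ∪ σ.Dt true ∪ σ.D3

variable {σ}

theorem N.refl {u : X × U} : σ.N u u := Geo.Conn.refl
theorem N.symm {u v : X × U} (h : σ.N u v) : σ.N v u := Geo.Conn.symm h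
theorem N.trans {u v w : X × U} (h : σ.N u v) (h' : σ.N v w) : σ.N u w := Geo.Conn.trans h h'
theorem N.orb {u v : X × U} (h : σ.N u v) : Orb (⊤ : Subgroup G) u.1 v.1 := Geo.Conn.orb h
theorem N.orb_pt {u v : X × U} (h : σ.N u v) : Orb A (σ.pt u) (σ.pt v) :=
  Geo.Conn.orb_pt σ.lk le_rfl h
theorem M.of {u v : X × U} (h : σ.N u v) (h' : σ.M v) : σ.M u :=
  let ⟨z, hz⟩ := h'; ⟨z, h.trans hz⟩
theorem V3.of {u v : X × U} (h : σ.N u v) (h' : σ.V3 v) : σ.V3 u :=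
  let ⟨h1, c1, n1, h2, c2, n2, h3, c3, n3, d⟩ := h'
  ⟨h1, c1, h.trans n1, h2, c2, h.trans n2, h3, c3, h.trans n3, d⟩

theorem Sup.main {h : X × (U × Bool)} (hm : σ.M (σ.ve h)) : σ.Sup h := ⟨0, hm⟩
theorem Sup.step {h h' : X × (U × Bool)} (h1 : h' ≠ h) (h2 : ed h' ∈ σ.B)
    (h3 : σ.N (σ.ve h) (σ.ve h')) (h4 : σ.Sup (opp h')) : σ.Sup h :=
  let ⟨n, hn⟩ := h4; ⟨n + 1, Or.inr ⟨h', h1, h2, h3, hn⟩⟩
theorem Sup.cases {h : X × (U × Bool)} (hs : σ.Sup h) : σ.M (σ.ve h) ∨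
    ∃ h', h' ≠ h ∧ ed h' ∈ σ.B ∧ σ.N (σ.ve h) (σ.ve h') ∧ σ.Sup (opp h') := by
  obtain ⟨n, hn⟩ := hs
  cases n with
  | zero => exact Or.inl hn
  | succ n =>
    rcases hn with hn | ⟨h', h1, h2, h3, h4⟩
    · exact Or.inl hn
    · exact Or.inr ⟨h', h1, h2, h3, n, h4⟩

theorem mem_C {h : X × (U × Bool)} : ed h ∈ σ.C ↔ ed h ∈ σ.B ∧ σ.Sup h ∧ σ.Sup (opp h) := by
  obtain ⟨x, j, s⟩ := h
  constructor
  · rintro ⟨h1, h2⟩
    exact ⟨h1, h2 s, h2 (!s)⟩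
  · rintro ⟨h1, h2, h3⟩
    refine ⟨h1, fun t => ?_⟩
    cases s <;> cases t <;> assumption

theorem val2 {h : X × (U × Bool)} (hc : ed h ∈ σ.C) (hm : ¬ σ.M (σ.ve h)) :
    ∃ h', h' ≠ h ∧ ed h' ∈ σ.C ∧ σ.N (σ.ve h) (σ.ve h') := by
  obtain ⟨h1, h2, h3⟩ := mem_C.mp hc
  rcases h2.cases with h4 | ⟨h', a, b', c, d⟩
  · exact absurd h4 hm
  · exact ⟨h', a, mem_C.mpr ⟨b', Sup.step a.symm h1 c.symm h3, d⟩, c⟩

theorem T_core {e : X × U} (he : e ∈ σ.B) (hm : ∀ s, σ.M (σ.en s e)) : e ∈ σ.C :=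
  ⟨he, fun s => Sup.main (hm s)⟩

variable (σ) in
theorem cellC (y : X) : ∃ e0 ∈ σ.C, ∃ e1 ∈ σ.C, ∃ e2 ∈ σ.C, σ.q e0 = y ∧ σ.q e1 = (a1 * b) • y ∧
    σ.q e2 = (a2 * b) • (a1 * b) • y ∧ σ.M (σ.en false e0) ∧
    σ.N (σ.en true e0) (σ.en false e1) ∧ σ.N (σ.en true e1) (σ.en false e2) ∧
    σ.M (σ.en true e2) := by
  obtain ⟨e0, b0, e1, b1, e2, b2, q0, q1, q2, m0, n1, n2, m2⟩ := σ.cell y
  have s0 : σ.Sup (hf e0 false) := Sup.main m0
  have s1 : σ.Sup (hf e1 false) :=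
    Sup.step (h' := hf e0 true) (by simp [hf_inj]) b0 (N.symm n1) s0
  have s2 : σ.Sup (hf e2 false) :=
    Sup.step (h' := hf e1 true) (by simp [hf_inj]) b1 (N.symm n2) s1
  have t2 : σ.Sup (hf e2 true) := Sup.main m2
  have t1 : σ.Sup (hf e1 true) := Sup.step (h' := hf e2 false) (by simp [hf_inj]) b2 n2 t2
  have t0 : σ.Sup (hf e0 true) := Sup.step (h' := hf e1 false) (by simp [hf_inj]) b1 n1 t1
  refine ⟨e0, ⟨b0, ?_⟩, e1, ⟨b1, ?_⟩, e2, ⟨b2, ?_⟩, q0, q1, q2, m0, n1, n2, m2⟩ <;>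
    intro s <;> cases s <;> assumption

theorem uniq {t : Bool} {x : X} (hx : x ∉ σ.D) {e e' : X × U} (he : e ∈ σ.C) (he' : e' ∈ σ.C)
    (hq : σ.q e = x) (hq' : σ.q e' = x) (hm : σ.M (σ.en t e)) (hm' : σ.M (σ.en t e')) :
    e' = e := by
  by_contra hne
  apply hx
  have : x ∈ σ.Dt t := ⟨e, he, hq, hm, e', he', hq', hm', hne⟩
  cases t
  · exact Or.inl (Or.inl this)
  · exact Or.inl (Or.inr this)

theorem notV3 {h : X × (U × Bool)} (hx : σ.q (ed h) ∉ σ.D) (he : ed h ∈ σ.C)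
    (hm : ¬ σ.M (σ.ve h)) : ¬ σ.V3 (σ.ve h) :=
  fun hv => hx (Or.inr ⟨h, he, rfl, hm, hv⟩)

theorem claim1 [IsCancelSMul G X] (hne : a1 ≠ a2) {x : X} (hT : x ∈ σ.T) (h0 : x ∉ σ.D)
    (h1 : (a1 * b) • x ∉ σ.D) : (a1 * b) • x ∈ σ.T ∧ (a2 * b) • (a1 * b) • x ∈ σ.T := by
  obtain ⟨e, he, hq, hm⟩ := hT
  obtain ⟨e0, c0, e1, c1, e2, c2, q0, q1, q2, m0, n1, n2, m2⟩ := σ.cellC x
  obtain ⟨f0, d0, f1, d1, -, -, r0, r1, -, k0, o1, -, -⟩ := σ.cellC ((a1 * b) • x)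
  obtain rfl : e = e0 := uniq h0 c0 (T_core he hm) q0 hq m0 (hm false)
  have m1 : σ.M (σ.en false e1) := M.of n1.symm (hm true)
  obtain rfl : f0 = e1 := uniq h1 c1 d0 q1 r0 m1 k0
  have m1' : σ.M (σ.en true f0) := by
    by_contra hm1
    refine notV3 (h := hf f0 true) (by simpa [q1] using h1) c1 hm1
      ⟨hf f0 true, c1, N.refl, hf e2 false, c2, n2, hf f1 false, d1, o1, by simp [hf_inj],
        by simp [hf_inj], ?_⟩
    intro h
    obtain rfl := (hf_inj.mp h).1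
    have := IsCancelSMul.right_cancel _ _ _ (r1.symm.trans q2)
    exact hne (mul_right_cancel this)
  refine ⟨⟨f0, c1.1, q1, fun s => ?_⟩, ⟨e2, c2.1, q2, fun s => ?_⟩⟩
  · cases s <;> assumption
  · cases s
    · exact M.of n2.symm m1'
    · exact m2

variable [Countable G] [MeasurableSpace G] [DiscreteMeasurableSpace G] [MeasurableSMul₂ G X]
variable (σ)

@[fun_prop] theorem meas_N {Z : Type*} [MeasurableSpace Z] {f f' : Z → X × U}
    (hf : Measurable f) (hf' : Measurable f') : Measurable fun z => σ.N (f z) (f' z) :=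
  Geo.meas_conn σ.Lk_meas hf hf'

@[fun_prop] theorem meas_M : Measurable σ.M := by
  have : σ.M = fun v => ∃ u, u.2 = σ.i0 ∧ σ.N v u := by
    ext v
    constructor
    · rintro ⟨z, hz⟩; exact ⟨_, rfl, hz⟩
    · rintro ⟨⟨z, j⟩, rfl, hz⟩; exact ⟨z, hz⟩
  rw [this]
  exact meas_ex G (π := Prod.fst) measurable_fst (by fun_prop) fun z u h => h.2.orb

theorem meas_B : Measurable fun e => e ∈ σ.B := σ.B_meas.mem

theorem meas_SupN (n : ℕ) : Measurable (σ.SupN n) := by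
  have hB := σ.meas_B
  induction n with
  | zero => show Measurable fun h => σ.M (σ.ve h); fun_prop
  | succ n ih =>
    show Measurable fun h => σ.M (σ.ve h) ∨
      ∃ h', h' ≠ h ∧ ed h' ∈ σ.B ∧ σ.N (σ.ve h) (σ.ve h') ∧ σ.SupN n (opp h')
    refine Measurable.or (by fun_prop) ?_
    refine meas_ex G (π := Prod.fst) measurable_fst (by fun_prop) fun z u h => ?_
    exact ((σ.ve_orb z).trans h.2.2.1.orb).trans (σ.ve_orb u).symm

@[fun_prop] theorem meas_Sup : Measurable σ.Sup := Measurable.exists σ.meas_SupN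

theorem meas_C : MeasurableSet σ.C :=
  σ.B_meas.inter (Measurable.setOf (by fun_prop))

theorem meas_T : MeasurableSet σ.T := by
  have hB := σ.meas_B
  refine Measurable.setOf (meas_ex G (π := id) measurable_id (by fun_prop) ?_)
  rintro z e ⟨-, rfl, -⟩
  exact (σ.q_orb e).symm

theorem meas_Dt (t : Bool) : MeasurableSet (σ.Dt t) := by
  have hC := σ.meas_C.mem
  refine Measurable.setOf (meas_ex G (π := id) measurable_id ?_ ?_)
  · refine Measurable.and (by fun_prop) (Measurable.and (by fun_prop)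
      (Measurable.and (by fun_prop) ?_))
    refine meas_ex G (π := Prod.fst) measurable_fst (by fun_prop) ?_
    rintro z e ⟨-, h, -⟩
    rw [← h]
    exact (σ.q_orb e).symm
  · rintro z e ⟨-, rfl, -⟩
    exact (σ.q_orb e).symm

@[fun_prop] theorem meas_V3 : Measurable σ.V3 := by
  have hC := σ.meas_C.mem
  have ho : ∀ v h, σ.N v (σ.ve h) → Orb (⊤ : Subgroup G) v.1 h.1 := fun v h hn =>
    hn.orb.trans (σ.ve_orb h).symm
  refine meas_ex G (π := Prod.fst) measurable_fst ?_ fun z u h => ho _ _ h.2.1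
  refine Measurable.and (by fun_prop) (Measurable.and (by fun_prop) ?_)
  refine meas_ex G (π := fun z : (X × U) × (X × (U × Bool)) => z.1.1) (by fun_prop) ?_
    fun z u h => ho _ _ h.2.1
  refine Measurable.and (by fun_prop) (Measurable.and (by fun_prop) ?_)
  exact meas_ex G (π := fun z : ((X × U) × (X × (U × Bool))) × (X × (U × Bool)) => z.1.1.1)
    (by fun_prop) (by fun_prop) fun z u h => ho _ _ h.2.1

theorem meas_D3 : MeasurableSet σ.D3 := by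
  have hC := σ.meas_C.mem
  refine Measurable.setOf (meas_ex G (π := id) measurable_id (by fun_prop) ?_)
  rintro z e ⟨-, rfl, -⟩
  exact (σ.q_orb (ed e)).symm

end St2

end Crest.Agent.H0291
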