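import Crest.Agent.H0291.LowBud

set_option autoImplicit false
set_option linter.unusedSectionVars false
open MeasureTheory Set
open scoped ENNReal

namespace Crest.Agent.H0291

variable {G X : Type*} [Group G] [MulAction G X] [MeasurableSpace X] [StandardBorelSpace X]
variable {μ : Measure X} {A : Subgroup G} {a1 a2 b : G}

theorem St2.cell_core {σ : St2 μ A a1 a2 b} {e0 e1 e2 : X × U} (b0 : e0 ∈ σ.B) (b1 : e1 ∈ σ.B)
    (b2 : e2 ∈ σ.B) (m0 : σ.M (σ.en false e0)) (n1 : σ.N (σ.en true e0) (σ.en false e1))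
    (n2 : σ.N (σ.en true e1) (σ.en false e2)) (m2 : σ.M (σ.en true e2)) : e0 ∈ σ.C := by
  have t2 : σ.Sup (hf e2 true) := St2.Sup.main m2
  have t1 : σ.Sup (hf e1 true) := St2.Sup.step (h' := hf e2 false) (by simp [hf_inj]) b2 n2 t2
  have t0 : σ.Sup (hf e0 true) := St2.Sup.step (h' := hf e1 false) (by simp [hf_inj]) b1 n1 t1
  refine ⟨b0, fun s => ?_⟩
  cases s
  · exact St2.Sup.main m0
  · exact t0

variable [Countable G] [MeasurableSpace G] [DiscreteMeasurableSpace G] [MeasurableSMul₂ G X]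

/-- Canonical measurable selection along orbits. -/
theorem exists_sel' (G : Type*) [Group G] [MulAction G X] [Countable G] [MeasurableSpace G]
    [DiscreteMeasurableSpace G] [MeasurableSMul₂ G X]
    {Z : Type*} [MeasurableSpace Z] {π : Z → X} (hπ : Measurable π)
    {P : Z → X × U → Prop} (hP : Measurable fun q : Z × (X × U) => P q.1 q.2)
    (ho : ∀ z b, P z b → Orb (⊤ : Subgroup G) (π z) b.1) (h : ∀ z, ∃ b, P z b) :
    ∃ f : Z → X × U, Measurable f ∧ (∀ z, P z (f z)) ∧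
      ∀ z z', π z = π z' → (∀ b, P z b ↔ P z' b) → f z = f z' := by
  classical
  have : Nonempty U := ⟨.nil⟩
  obtain ⟨e, he⟩ := exists_surjective_nat (G × U)
  have h' : ∀ z, ∃ n, P z ((e n).1 • π z, (e n).2) := by
    intro z
    obtain ⟨b, hb⟩ := h z
    obtain ⟨g, -, hg⟩ := ho z b hb
    obtain ⟨n, hn⟩ := he (g, b.2)
    exact ⟨n, by rw [hn, ← hg]; exact hb⟩
  refine ⟨fun z => ((e (Nat.find (h' z))).1 • π z, (e (Nat.find (h' z))).2), ?_,
    fun z => Nat.find_spec (h' z), fun z z' h1 h2 => ?_⟩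
  · refine Measurable.find (f := fun n z => ((e n).1 • π z, (e n).2))
      (p := fun n z => P z ((e n).1 • π z, (e n).2)) (fun n => by fun_prop) (fun n => ?_) h'
    exact (hP.comp (f := fun z => (z, ((e n).1 • π z, (e n).2))) (by fun_prop)).setOf
  · have : Nat.find (h' z) = Nat.find (h' z') := Nat.find_congr' (by simp [h1, h2])
    show ((e (Nat.find (h' z))).1 • π z, (e (Nat.find (h' z))).2) =
      ((e (Nat.find (h' z'))).1 • π z', (e (Nat.find (h' z'))).2)
    rw [this]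
    congr 2

variable [IsCancelSMul G X]

theorem St2.fold (σ : St2 μ A a1 a2 b) (s : Bool) :
    ∃ (σ' : St2 μ A a1 a2 b) (ρ : X × U → X × U), σ'.W = σ.W ∧ σ'.E = σ.E ∧ σ'.i0 = σ.i0 ∧
      (∀ u v, σ.N u v → σ'.N u v) ∧
      (∀ e ∈ σ.B, ρ e ∈ σ'.B ∧ σ'.q (ρ e) = σ.q e ∧ ∀ t, σ'.N (σ.en t e) (σ'.en t (ρ e))) ∧
      (∀ e ∈ σ.C, ∀ e' ∈ σ.C, σ.q e = σ.q e' → σ.N (σ.en s e) (σ.en s e') → ρ e = ρ e') ∧
      σ'.T ⊆ σ.T ∪ σ'.D ∪ σ.D ∪ (fun x => (a1 * b) • x) ⁻¹' σ.D := by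
  classical
  have hC := σ.meas_C.mem
  let cls : X × U → X × U → Prop := fun e e' =>
    e ∈ σ.C ∧ e' ∈ σ.C ∧ σ.q e = σ.q e' ∧ σ.N (σ.en s e) (σ.en s e')
  obtain ⟨ρ, mρ, hρ, cρ⟩ := exists_sel' G (π := σ.q) σ.q_meas
    (P := fun e e' => cls e e' ∨ (e ∉ σ.C ∧ e' = e)) (by simp only [cls]; fun_prop)
    (by
      rintro z e (h | ⟨-, rfl⟩)
      · rw [h.2.2.1]; exact (σ.q_orb _).symm
      · exact (σ.q_orb _).symm)
    (by
      intro z
      by_cases h : z ∈ σ.C
      · exact ⟨z, Or.inl ⟨h, h, rfl, St2.N.refl⟩⟩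
      · exact ⟨z, Or.inr ⟨h, rfl⟩⟩)
  have ρc : ∀ e e', cls e e' → ρ e = ρ e' := by
    intro e e' h
    refine cρ e e' h.2.2.1 fun f => ⟨?_, ?_⟩
    · rintro (h' | h')
      · exact Or.inl ⟨h.2.1, h'.2.1, h.2.2.1.symm.trans h'.2.2.1, h.2.2.2.symm.trans h'.2.2.2⟩
      · exact absurd h.1 h'.1
    · rintro (h' | h')
      · exact Or.inl ⟨h.1, h'.2.1, h.2.2.1.trans h'.2.2.1, h.2.2.2.trans h'.2.2.2⟩
      · exact absurd h.2.1 h'.1
  let NR : Set (X × U) := {e | ρ e ≠ e}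
  have mNR : MeasurableSet NR := Measurable.setOf (by fun_prop)
  have nr : ∀ e ∈ NR, cls e (ρ e) := fun e he => (hρ e).resolve_right fun h => he h.2
  have ρρ : ∀ e, ρ e ∉ NR := by
    intro e he
    by_cases h : e ∈ NR
    · exact he (ρc _ _ (nr e h)).symm
    · have : ρ e = e := not_not.mp h
      rw [this] at he
      exact h he
  have ρq : ∀ e, σ.q (ρ e) = σ.q e := by
    intro e
    by_cases h : e ∈ NR
    · exact (nr e h).2.2.1.symm
    · rw [show ρ e = e from not_not.mp h]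
  have ρB : ∀ e ∈ σ.B, ρ e ∈ σ.B := by
    intro e he
    by_cases h : e ∈ NR
    · exact (nr e h).2.1.1
    · rwa [show ρ e = e from not_not.mp h]
  let γ : Geo G X :=
    { i0 := σ.i0
      pt := σ.pt
      en := fun t e => if e ∈ NR then σ.en (!s) (if t then ρ e else e) else σ.en t e
      pt_meas := σ.pt_meas
      en_meas := fun t => Measurable.ite mNR (by cases t <;> simp <;> fun_prop) (by fun_prop)
      pt_orb := σ.pt_orb
      en_orb := by
        intro t e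
        split_ifs
        · exact ((σ.q_orb e).trans (ρq e ▸ (σ.q_orb (ρ e)).symm)).trans (σ.en_orb _ _)
        · exact σ.en_orb _ _
        · exact σ.en_orb _ _
      pt_main := σ.pt_main }
  have en1 : ∀ t, ∀ e ∉ NR, γ.en t e = σ.en t e := fun t e h => if_neg h
  have en2 : ∀ e ∈ NR, γ.en false e = σ.en (!s) e := fun e h => if_pos h
  have en3 : ∀ e ∈ NR, γ.en true e = σ.en (!s) (ρ e) := fun e h => if_pos h
  have hLk : ∀ e ∈ σ.Lk, e ∉ NR := fun e he h => disjoint_left.mp σ.dis (nr e h).1.1 he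
  have NN : ∀ u v, σ.N u v → γ.Conn (σ.Lk ∪ NR) A u v := by
    intro u v h
    refine Geo.Conn.lift (γ := σ.toGeo) (r := γ.Conn (σ.Lk ∪ NR) A) (fun _ => Geo.Conn.refl)
      (fun _ _ => Geo.Conn.symm) (fun _ _ _ => Geo.Conn.trans) id (fun e he => ?_)
      (fun _ _ h => Geo.Conn.free (γ := γ) h) h
    simp only [id, ← en1 _ e (hLk e he)]
    exact Geo.Conn.edge (Or.inl he) _ _
  have Nρ : ∀ e t, γ.Conn (σ.Lk ∪ NR) A (σ.en t e) (γ.en t (ρ e)) := by
    intro e t
    rw [en1 _ _ (ρρ e)]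
    by_cases h : e ∈ NR
    · by_cases ht : t = s
      · rw [ht]; exact NN _ _ (nr e h).2.2.2
      · obtain rfl : t = !s := by cases t <;> cases s <;> simp_all
        rw [← en2 e h, ← en3 e h]
        exact Geo.Conn.edge (Or.inr h) _ _
    · rw [show ρ e = e from not_not.mp h]; exact Geo.Conn.refl
  have hsub : σ.Lk ∪ NR ⊆ σ.E := union_subset σ.Lk_sub fun e h => σ.B_sub (nr e h).1.1
  let σ' : St2 μ A a1 a2 b :=
    { toGeo := γ
      W := σ.W
      E := σ.E
      W_meas := σ.W_meas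
      E_meas := σ.E_meas
      W_main := σ.W_main
      W_fin := σ.W_fin
      en_valid := by
        intro e he t
        by_cases h : e ∈ NR
        · cases t
          · rw [en2 e h]; exact σ.en_valid _ he _
          · rw [en3 e h]; exact σ.en_valid _ (σ.B_sub (nr e h).2.1.1) _
        · rw [en1 t e h]; exact σ.en_valid _ he _
      conn := by
        intro w hw
        obtain ⟨y, hy⟩ := σ.conn w hw
        refine ⟨y, Geo.Conn.lift (γ := σ.toGeo) (r := γ.Conn σ.E ⊤) (fun _ => Geo.Conn.refl)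
          (fun _ _ => Geo.Conn.symm) (fun _ _ _ => Geo.Conn.trans) id (fun e he => ?_)
          (fun _ _ h => Geo.Conn.free (γ := γ) h) hy⟩
        by_cases h : e ∈ NR
        · exact (((Nρ e false).mono hsub le_top).trans
            (Geo.Conn.edge (σ.B_sub (nr e h).2.1.1) _ _)).trans ((Nρ e true).mono hsub le_top).symm
        · simp only [id, ← en1 _ e h]
          exact Geo.Conn.edge he _ _
      B := σ.B \ NR
      Lk := σ.Lk ∪ NR
      q := σ.q
      B_meas := σ.B_meas.diff mNR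
      Lk_meas := σ.Lk_meas.union mNR
      q_meas := σ.q_meas
      B_sub := fun e he => σ.B_sub he.1
      Lk_sub := hsub
      dis := by
        rw [disjoint_left]
        rintro e he (h | h)
        · exact disjoint_left.mp σ.dis he.1 h
        · exact he.2 h
      q_orb := σ.q_orb
      lk := by
        rintro e (h | h)
        · rw [en1 _ e (hLk e h), en1 _ e (hLk e h)]; exact σ.lk e h
        · rw [en2 e h, en3 e h]
          have h1 := σ.bq _ (nr e h).1.1 (!s)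
          have h2 := σ.bq _ (nr e h).2.1.1 (!s)
          rw [ρq] at h2
          exact h1.symm.trans h2
      bq := fun e he t => by rw [en1 t e he.2]; exact σ.bq e he.1 t
      cell := by
        intro y
        obtain ⟨e0, b0, e1, b1, e2, b2, q0, q1, q2, ⟨z0, m0⟩, n1, n2, z2, m2⟩ := σ.cell y
        exact ⟨ρ e0, ⟨ρB _ b0, ρρ _⟩, ρ e1, ⟨ρB _ b1, ρρ _⟩, ρ e2, ⟨ρB _ b2, ρρ _⟩,
          (ρq _).trans q0, (ρq _).trans q1, (ρq _).trans q2,
          ⟨z0, (Nρ e0 false).symm.trans (NN _ _ m0)⟩,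
          ((Nρ e0 true).symm.trans (NN _ _ n1)).trans (Nρ e1 false),
          ((Nρ e1 true).symm.trans (NN _ _ n2)).trans (Nρ e2 false),
          z2, (Nρ e2 true).symm.trans (NN _ _ m2)⟩ }
  refine ⟨σ', ρ, rfl, rfl, rfl, NN, fun e he => ⟨⟨ρB e he, ρρ e⟩, ρq e, Nρ e⟩,
    fun e he e' he' h1 h2 => ρc _ _ ⟨he, he', h1, h2⟩, ?_⟩
  intro x hx
  by_contra hn
  simp only [mem_union, not_or, mem_preimage] at hn
  obtain ⟨⟨⟨hT, hD'⟩, hD⟩, hD1⟩ := hn
  obtain ⟨e', be', qe', me'⟩ := hx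
  obtain ⟨e0, c0, e1, c1, e2, c2, q0, q1, q2, m0, n1, n2, m2⟩ := σ.cellC x
  have MM : ∀ e t, σ.M (σ.en t e) → σ'.M (σ'.en t (ρ e)) := fun e t ⟨z, hz⟩ =>
    ⟨z, (Nρ e t).symm.trans (NN _ _ hz)⟩
  have hc0 : ρ e0 ∈ σ'.C := St2.cell_core (e1 := ρ e1) (e2 := ρ e2) ⟨ρB _ c0.1, ρρ _⟩
    ⟨ρB _ c1.1, ρρ _⟩ ⟨ρB _ c2.1, ρρ _⟩ (MM _ _ m0)
    (((Nρ e0 true).symm.trans (NN _ _ n1)).trans (Nρ e1 false))
    (((Nρ e1 true).symm.trans (NN _ _ n2)).trans (Nρ e2 false)) (MM _ _ m2)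
  obtain rfl : e' = ρ e0 := St2.uniq hD' hc0 (St2.T_core be' me') ((ρq _).trans q0) qe'
    (MM _ _ m0) (me' false)
  have hm : ¬ σ.M (σ.en true e0) := fun h => hT ⟨e0, c0.1, q0, fun t => by cases t <;> assumption⟩
  have rigid : ∀ f f', cls f f' → f' ≠ f → ¬ σ.N (σ.en true e0) (σ.en (!s) f) := by
    intro f f' hc hne hN
    have h3 := St2.notV3 (h := hf e0 true) (by simpa [q0] using hD) c0 hm
    by_cases k1 : hf e0 true = hf f (!s)
    · obtain ⟨rfl, hs⟩ := hf_inj.mp k1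
      obtain rfl : s = false := by simpa using hs
      exact hne (St2.uniq hD c0 hc.2.1 q0 (hc.2.2.1.symm.trans q0) m0 (St2.M.of hc.2.2.2.symm m0))
    by_cases k2 : hf e1 false = hf f (!s)
    · obtain ⟨rfl, hs⟩ := hf_inj.mp k2
      obtain rfl : s = true := by simpa using hs
      by_cases hm1 : σ.M (σ.en true e1)
      · exact hne (St2.uniq hD1 c1 hc.2.1 q1 (hc.2.2.1.symm.trans q1) hm1
          (St2.M.of hc.2.2.2.symm hm1))
      · exact St2.notV3 (h := hf e1 true) (by simpa [q1] using hD1) c1 hm1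
          ⟨hf e1 true, c1, St2.N.refl, hf f' true, hc.2.1, hc.2.2.2, hf e2 false, c2, n2,
            by simpa [hf_inj] using hne.symm, by simp [hf_inj], by simp [hf_inj]⟩
    exact h3 ⟨hf e0 true, c0, St2.N.refl, hf e1 false, c1, n1, hf f (!s), hc.1, hN,
      by simp [hf_inj], k1, k2⟩
  obtain ⟨z, hz⟩ := me' true
  have hz' : γ.Conn (σ.Lk ∪ NR) A (σ.en true e0) (z, σ.i0) := (Nρ e0 true).trans hz
  have := Geo.Conn.lift (γ := γ) (r := Iff) (fun _ => Iff.rfl) (fun _ _ => Iff.symm)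
    (fun _ _ _ => Iff.trans) (fun v => σ.N (σ.en true e0) v) ?_ ?_ hz'
  · exact hm ⟨z, this.mp St2.N.refl⟩
  · rintro e (h | h)
    · rw [en1 _ e (hLk e h), en1 _ e (hLk e h)]
      have : σ.N (σ.en false e) (σ.en true e) := Geo.Conn.edge h _ _
      exact ⟨fun h => h.trans this, fun h => h.trans this.symm⟩
    · rw [en2 e h, en3 e h]
      have hc := nr e h
      exact iff_of_false (rigid _ _ hc h)
        (rigid _ _ ⟨hc.2.1, hc.1, hc.2.2.1.symm, hc.2.2.2.symm⟩ (Ne.symm h))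
  · intro x y h
    have : σ.N (x, σ.i0) (y, σ.i0) := Geo.Conn.free h
    exact ⟨fun h => h.trans this, fun h => h.trans this.symm⟩

end Crest.Agent.H0291
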