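import Crest.Agent.H0291.LowBasic

set_option autoImplicit false
set_option linter.unusedSectionVars false
open MeasureTheory Set
open scoped ENNReal

namespace Crest.Agent.H0291

/-- The universal countable index type. -/
inductive U : Type
  | nil : U
  | c (n : ℕ) (u : U) : U

def U.toList : U → List ℕ
  | .nil => []
  | .c n u => n :: u.toList

theorem U.toList_inj : Function.Injective U.toList := by
  intro a
  induction a with
  | nil => intro b h; cases b <;> simp_all [U.toList]
  | c n u ih =>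
    intro b h
    cases b with
    | nil => simp [U.toList] at h
    | c m v =>
      simp only [U.toList, List.cons.injEq] at h
      rw [h.1, ih h.2]

instance : Countable U := U.toList_inj.countable
instance : MeasurableSpace U := ⊤
instance : DiscreteMeasurableSpace U := ⟨fun _ => trivial⟩

/-- Walks of a given length. -/
def Walk {α : Type*} (r : α → α → Prop) : ℕ → α → α → Prop
  | 0, u, v => u = v
  | n + 1, u, v => ∃ w, r u w ∧ Walk r n w v

theorem rtg_iff_walk {α : Type*} {r : α → α → Prop} {u v : α} :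
    Relation.ReflTransGen r u v ↔ ∃ n, Walk r n u v := by
  constructor
  · intro h
    induction h using Relation.ReflTransGen.head_induction_on with
    | refl => exact ⟨0, rfl⟩
    | head h _ ih =>
      obtain ⟨n, hn⟩ := ih
      exact ⟨n + 1, _, h, hn⟩
  · rintro ⟨n, hn⟩
    induction n generalizing u with
    | zero => cases hn; exact .refl
    | succ n ih =>
      obtain ⟨w, h1, h2⟩ := hn
      exact .head h1 (ih h2)

variable (G X : Type*) [Group G] [MulAction G X] [MeasurableSpace X]

/-- Positions of vertices and end points of edges. -/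
structure Geo where
  i0 : U
  pt : X × U → X
  en : Bool → X × U → X × U
  pt_meas : Measurable pt
  en_meas : ∀ s, Measurable (en s)
  pt_orb : ∀ v, Orb (⊤ : Subgroup G) v.1 (pt v)
  en_orb : ∀ s e, Orb (⊤ : Subgroup G) e.1 (en s e).1
  pt_main : ∀ x, pt (x, i0) = x

variable {G X}

attribute [fun_prop] Geo.pt_meas Geo.en_meas

namespace Geo

/-- One step: along an edge of `E`, or a free `K`-step between main vertices. -/
def Step (γ : Geo G X) (E : Set (X × U)) (K : Subgroup G) (u v : X × U) : Prop :=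
  (∃ e, e ∈ E ∧ ∃ s, u = γ.en s e ∧ v = γ.en (!s) e) ∨
    (u.2 = γ.i0 ∧ v.2 = γ.i0 ∧ Orb K u.1 v.1)

def Conn (γ : Geo G X) (E : Set (X × U)) (K : Subgroup G) : X × U → X × U → Prop :=
  Relation.ReflTransGen (γ.Step E K)

variable {γ : Geo G X} {E E' : Set (X × U)} {K K' : Subgroup G} {u v w : X × U}

theorem Step.symm (h : γ.Step E K u v) : γ.Step E K v u := by
  rcases h with ⟨e, he, s, h1, h2⟩ | ⟨h1, h2, h3⟩
  · exact Or.inl ⟨e, he, !s, h2, by simpa using h1⟩
  · exact Or.inr ⟨h2, h1, h3.symm⟩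

theorem Step.orb (h : γ.Step E K u v) : Orb (⊤ : Subgroup G) u.1 v.1 := by
  rcases h with ⟨e, -, s, rfl, rfl⟩ | ⟨-, -, h3⟩
  · exact (γ.en_orb s e).symm.trans (γ.en_orb _ e)
  · exact h3.top

theorem Conn.refl : γ.Conn E K u u := Relation.ReflTransGen.refl

theorem Conn.trans (h : γ.Conn E K u v) (h' : γ.Conn E K v w) : γ.Conn E K u w :=
  Relation.ReflTransGen.trans h h'

theorem Conn.symm (h : γ.Conn E K u v) : γ.Conn E K v u := by
  induction h with
  | refl => exact Conn.refl
  | tail _ h ih => exact Relation.ReflTransGen.head h.symm ih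

theorem Conn.edge {e : X × U} (he : e ∈ E) (s s' : Bool) :
    γ.Conn E K (γ.en s e) (γ.en s' e) := by
  by_cases h : s' = s
  · rw [h]; exact Conn.refl
  · refine Relation.ReflTransGen.single (Or.inl ⟨e, he, s, rfl, ?_⟩)
    cases s <;> cases s' <;> simp_all

theorem Conn.free {x y : X} (h : Orb K x y) : γ.Conn E K (x, γ.i0) (y, γ.i0) :=
  Relation.ReflTransGen.single (Or.inr ⟨rfl, rfl, h⟩)

/-- Induction principle / transfer of connectivity along a map. -/
theorem Conn.lift {α : Type*} {r : α → α → Prop} (hr : ∀ a, r a a)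
    (hs : ∀ a b, r a b → r b a) (ht : ∀ a b c, r a b → r b c → r a c) (f : X × U → α)
    (h1 : ∀ e ∈ E, r (f (γ.en false e)) (f (γ.en true e)))
    (h2 : ∀ x y, Orb K x y → r (f (x, γ.i0)) (f (y, γ.i0))) (h : γ.Conn E K u v) :
    r (f u) (f v) := by
  induction h with
  | refl => exact hr _
  | @tail b c _ h ih =>
    refine ht _ _ _ ih ?_
    rcases h with ⟨e, he, s, rfl, rfl⟩ | ⟨h3, h4, h5⟩
    · cases s
      · exact h1 e he
      · exact hs _ _ (h1 e he)
    · have := h2 _ _ h5
      rwa [← h3, Prod.mk.eta, h3, ← h4, Prod.mk.eta] at this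

theorem Conn.mono (hE : E ⊆ E') (hK : K ≤ K') (h : γ.Conn E K u v) : γ.Conn E' K' u v :=
  Conn.lift (r := γ.Conn E' K') (fun _ => Conn.refl) (fun _ _ => Conn.symm)
    (fun _ _ _ => Conn.trans) id (fun _ he => Conn.edge (hE he) _ _)
    (fun _ _ h => Conn.free (h.mono hK)) h

theorem Conn.orb (h : γ.Conn E K u v) : Orb (⊤ : Subgroup G) u.1 v.1 :=
  Conn.lift (r := Orb (⊤ : Subgroup G)) (Orb.refl _) (fun _ _ => Orb.symm)
    (fun _ _ _ => Orb.trans) Prod.fst
    (fun e _ => (γ.en_orb _ e).symm.trans (γ.en_orb _ e)) (fun _ _ h => h.top) h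

theorem Conn.orb_pt (hE : ∀ e ∈ E, Orb K' (γ.pt (γ.en false e)) (γ.pt (γ.en true e)))
    (hK : K ≤ K') (h : γ.Conn E K u v) : Orb K' (γ.pt u) (γ.pt v) :=
  Conn.lift (r := Orb K') (Orb.refl _) (fun _ _ => Orb.symm)
    (fun _ _ _ => Orb.trans) γ.pt hE
    (fun _ _ h => by rw [γ.pt_main, γ.pt_main]; exact h.mono hK) h

theorem walk_orb {n : ℕ} (h : Walk (γ.Step E K) n u v) : Orb (⊤ : Subgroup G) u.1 v.1 :=
  Conn.orb (rtg_iff_walk.mpr ⟨n, h⟩)

variable [Countable G] [MeasurableSpace G] [DiscreteMeasurableSpace G]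
  [StandardBorelSpace X] [MeasurableSMul₂ G X]

theorem meas_step (hE : MeasurableSet E) :
    Measurable fun q : (X × U) × (X × U) => γ.Step E K q.1 q.2 := by
  unfold Step
  refine Measurable.or ?_ (by fun_prop)
  refine meas_ex G (π := fun q : (X × U) × (X × U) => q.1.1) (by fun_prop) ?_ ?_
  · exact (hE.mem.comp measurable_snd).and (by fun_prop)
  · rintro z b ⟨-, s, h, -⟩
    rw [h]
    exact (γ.en_orb s b).symm

theorem meas_walk (hE : MeasurableSet E) (n : ℕ) :
    Measurable fun q : (X × U) × (X × U) => Walk (γ.Step E K) n q.1 q.2 := by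
  induction n with
  | zero => unfold Walk; fun_prop
  | succ n ih =>
    unfold Walk
    refine meas_ex G (π := fun q : (X × U) × (X × U) => q.1.1) (by fun_prop) ?_ ?_
    · exact ((meas_step hE).comp (f := fun q : ((X × U) × (X × U)) × (X × U) => (q.1.1, q.2))
        (by fun_prop)).and (ih.comp (f := fun q : ((X × U) × (X × U)) × (X × U) => (q.2, q.1.2))
        (by fun_prop))
    · rintro z b ⟨h, -⟩
      exact h.orb

theorem meas_conn (hE : MeasurableSet E) {Z : Type*} [MeasurableSpace Z] {f f' : Z → X × U}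
    (hf : Measurable f) (hf' : Measurable f') : Measurable fun z => γ.Conn E K (f z) (f' z) := by
  simp only [Conn, rtg_iff_walk]
  exact Measurable.exists fun n => (meas_walk hE n).comp (hf.prodMk hf')

variable (μ : Measure X) [SMulInvariantMeasure G X μ] [IsCancelSMul G X]

/-- Vertices connected to a root set inject into the edges. -/
theorem levitt (hE : MeasurableSet E) {W S : Set (X × U)} (hW : MeasurableSet W)
    (hS : MeasurableSet S) (hmain : ∀ x, (x, γ.i0) ∈ S)
    (h : ∀ w ∈ W, ∃ s ∈ S, γ.Conn E K w s) : nu μ U (W \ S) ≤ nu μ U E := by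
  classical
  let D : ℕ → X × U → Prop := fun n v => ∃ s, s ∈ S ∧ Walk (γ.Step E K) n v s
  have hD : ∀ n, Measurable (D n) := fun n =>
    meas_ex G (π := Prod.fst) measurable_fst ((hS.mem.comp measurable_snd).and (meas_walk hE n))
      fun z b h => walk_orb h.2
  refine dc1 μ G (hW.diff hS) hE (ρ := fun w e => ∃ s, w = γ.en s e ∧
    ∃ n, D n (γ.en (!s) e) ∧ ∀ m, m ≤ n → ¬ D m w) (by fun_prop) ?_ ?_ ?_
  · rintro a b ⟨s, rfl, -⟩
    exact (γ.en_orb s b).symm
  · intro w hw
    obtain ⟨s, hs, hc⟩ := h w hw.1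
    obtain ⟨n, hn⟩ := rtg_iff_walk.mp hc
    have hex : ∃ n, D n w := ⟨n, s, hs, hn⟩
    have h1 := Nat.find_spec hex
    have h2 := fun m => Nat.find_min hex (m := m)
    generalize Nat.find hex = k at h1 h2
    obtain ⟨s', hs', hk⟩ := h1
    cases k with
    | zero => cases hk; exact absurd hs' hw.2
    | succ k =>
      obtain ⟨u, hu, hk⟩ := hk
      rcases hu with ⟨e, he, σ, h3, h4⟩ | ⟨h3, -, -⟩
      · exact ⟨e, he, σ, h3, k, ⟨s', hs', h4 ▸ hk⟩, fun m hm => h2 m (by omega)⟩
      · exact absurd (by rw [← Prod.mk.eta (p := w), h3]; exact hmain _) hw.2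
  · rintro e - a - a' - ⟨s, rfl, n, h1, h2⟩ ⟨s', rfl, n', h1', h2'⟩
    by_cases hs : s = s'
    · rw [hs]
    · have e1 : s' = !s := by cases s <;> cases s' <;> simp_all
      subst e1
      rw [Bool.not_not] at h1'
      rcases le_total n n' with hn | hn
      · exact absurd h1 (h2' n hn)
      · exact absurd h1' (h2 n' hn)

end Geo

variable (G)

/-- A graph over `X` with non-main vertex set `W` and edge set `E`, connected to the main sheet. -/
structure St (μ : Measure X) extends Geo G X where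
  W : Set (X × U)
  E : Set (X × U)
  W_meas : MeasurableSet W
  E_meas : MeasurableSet E
  W_main : ∀ x, (x, i0) ∉ W
  W_fin : nu μ U W ≠ ⊤
  en_valid : ∀ e ∈ E, ∀ s, en s e ∈ W ∨ (en s e).2 = i0
  conn : ∀ w ∈ W, ∃ y, toGeo.Conn E ⊤ w (y, i0)

end Crest.Agent.H0291
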