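import Crest.Agent.H0291.LowFold

set_option autoImplicit false
set_option linter.unusedSectionVars false
open MeasureTheory Set
open scoped ENNReal

namespace Crest.Agent.H0291

variable {G X : Type*} [Group G] [MulAction G X] [MeasurableSpace X] [StandardBorelSpace X]
variable {μ : Measure X} {A : Subgroup G} {a1 a2 b : G}

namespace St2

inductive IsPath (σ : St2 μ A a1 a2 b) : X × U → List (X × (U × Bool)) → X × U → Prop
  | nil {u v : X × U} : σ.N u v → IsPath σ u [] v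
  | cons {u v : X × U} {h : X × (U × Bool)} {l : List (X × (U × Bool))} : ed h ∈ σ.B →
      σ.N u (σ.ve h) → IsPath σ (σ.ve (opp h)) l v → IsPath σ u (h :: l) v

variable {σ : St2 μ A a1 a2 b} {u u' v : X × U} {l l1 l2 : List (X × (U × Bool))}
  {h h' : X × (U × Bool)}

theorem IsPath.pre (hn : σ.N u u') (hp : σ.IsPath u' l v) : σ.IsPath u l v := by
  cases hp with
  | nil h => exact .nil (hn.trans h)
  | cons h1 h2 h3 => exact .cons h1 (hn.trans h2) h3

theorem IsPath.shorten (hp : σ.IsPath u (l1 ++ h :: opp h :: l2) v) :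
    σ.IsPath u (l1 ++ l2) v := by
  induction l1 generalizing u with
  | nil =>
    cases hp with
    | cons h1 h2 h3 =>
      cases h3 with
      | cons h4 h5 h6 => exact IsPath.pre h2 (by simpa using h6)
  | cons k l1 ih =>
    cases hp with
    | cons h1 h2 h3 => exact .cons h1 h2 (ih h3)

theorem IsPath.mid (hp : σ.IsPath u (l1 ++ h :: h' :: l2) v) :
    σ.N (σ.ve (opp h)) (σ.ve h') := by
  induction l1 generalizing u with
  | nil =>
    cases hp with
    | cons h1 h2 h3 =>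
      cases h3 with
      | cons h4 h5 h6 => exact h5
  | cons k l1 ih =>
    cases hp with
    | cons h1 h2 h3 => exact ih h3

theorem IsPath.core (hp : σ.IsPath u l v) (hv : σ.M v)
    (hc : l.IsChain fun h h' => h' ≠ opp h) (hs : ∀ h ∈ l.head?, σ.Sup h) :
    ∀ h ∈ l, ed h ∈ σ.C := by
  induction hp with
  | nil => simp
  | @cons u v h l h1 h2 h3 ih =>
    have hs' : σ.Sup h := hs h (by simp)
    cases h3 with
    | nil h4 =>
      simp only [List.mem_singleton, forall_eq]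
      exact mem_C.mpr ⟨h1, hs', Sup.main (M.of h4 hv)⟩
    | @cons _ _ h' l' h4 h5 h6 =>
      rw [List.isChain_cons_cons] at hc
      have := ih hv hc.2 (by
        simp only [List.head?_cons, Option.mem_def, Option.some.injEq, forall_eq']
        exact Sup.step (h' := opp h) hc.1.symm h1 h5.symm (by simpa using hs'))
      intro k hk
      rcases List.mem_cons.mp hk with rfl | hk
      · exact mem_C.mpr ⟨h1, hs', Sup.step hc.1 h4 h5 (mem_C.mp (this h' (by simp))).2.2⟩
      · exact this k hk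

variable (σ) in
/-- Backtracking in the tree. -/
def TB (h h' : X × (U × Bool)) : Prop := σ.q (ed h) = σ.q (ed h') ∧ h'.2.2 = !h.2.2

theorem bq' (hb : ed h ∈ σ.B) :
    Orb A (if h.2.2 then b • σ.q (ed h) else σ.q (ed h)) (σ.pt (σ.ve h)) := σ.bq _ hb _

variable [IsCancelSMul G X]

theorem IsPath.tree (hp : σ.IsPath u l v) (hc : l.IsChain fun h h' => ¬ σ.TB h h') (x : X)
    (s : Bool) (ho : Orb A (if s then x else b • x) (σ.pt u))
    (hh : ∀ h ∈ l.head?, ¬ (x = σ.q (ed h) ∧ h.2.2 = !s)) :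
    ∃ g, Red2 A b s g ∧ (if s then b • x else x) = g • σ.pt v := by
  have key : ∀ (x : X) (s : Bool), (if s then b • x else x) =
      (if s then b else b⁻¹) • (if s then x else b • x) := fun x s => by cases s <;> simp
  induction hp generalizing x s with
  | nil h =>
    obtain ⟨a, ha, e⟩ := (ho.trans h.orb_pt).symm
    exact ⟨_, .base s a ha, by rw [key, e, mul_smul]⟩
  | @cons u v h l h1 h2 h3 ih =>
    obtain ⟨g, hg, e⟩ := ih hc.tail (σ.q (ed h)) h.2.2
      (by
        have := bq' (h := opp h) h1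
        simp only [ed_opp, sd_opp] at this
        cases hs : h.2.2 <;> simpa [hs] using this)
      (by
        intro k hk
        cases l with
        | nil => simp at hk
        | cons k' l =>
          obtain rfl : k' = k := by simpa using hk
          exact (List.isChain_cons_cons.mp hc).1)
    obtain ⟨a, ha, e'⟩ := ((ho.trans h2.orb_pt).trans (bq' h1).symm).symm
    refine ⟨_, .step s h.2.2 a g ha ?_ hg, by rw [key, e', e, mul_smul, mul_smul]⟩
    rintro rfl
    by_contra hne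
    apply hh h (by simp)
    clear ih hh e hg
    cases s <;> cases hs : h.2.2 <;> simp_all

theorem IsPath.cases_T (T2 : ∀ s g, Red2 A b s g → g ∉ A) {x : X}
    (hp : σ.IsPath (x, σ.i0) l (b • x, σ.i0)) :
    x ∈ σ.T ∨ ∃ l1 h h' l2, l = l1 ++ h :: h' :: l2 ∧ σ.TB h h' := by
  by_cases hc : l.IsChain fun h h' => ¬ σ.TB h h'
  swap
  · rw [List.isChain_iff_forall_rel_of_append_cons_cons] at hc
    push Not at hc
    obtain ⟨h, h', l1, l2, e, t⟩ := hc
    exact Or.inr ⟨l1, h, h', l2, e, t⟩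
  left
  by_cases hh : ∀ h ∈ l.head?, ¬ (x = σ.q (ed h) ∧ h.2.2 = !true)
  · obtain ⟨g, hg, e⟩ := hp.tree hc x true (by rw [σ.pt_main]; exact Orb.refl _ _) hh
    rw [σ.pt_main, if_pos rfl] at e
    have : g = 1 := IsCancelSMul.right_cancel _ _ _ (e.symm.trans (one_smul _ _).symm)
    exact absurd (this ▸ A.one_mem) (T2 _ _ hg)
  push Not at hh
  obtain ⟨h, hl, hx, hs⟩ := hh
  cases hp with
  | nil => simp at hl
  | @cons _ _ k l h1 h2 h3 =>
    obtain rfl : k = h := by simpa using hl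
    cases h3 with
    | nil h4 =>
      refine ⟨ed k, h1, hx.symm, fun t => ?_⟩
      have hs' : k.2.2 = false := by simpa using hs
      cases t
      · exact ⟨x, by rw [← hs']; exact h2.symm⟩
      · exact ⟨b • x, by simpa [Geo.ve, hs'] using h4⟩
    | @cons _ _ h' l' h4 h5 h6 =>
      exfalso
      obtain ⟨g, hg, e⟩ := h6.tree hc.tail.tail (σ.q (ed h')) h'.2.2
        (by
          have := bq' (h := opp h') h4
          simp only [ed_opp, sd_opp] at this
          cases hs : h'.2.2 <;> simpa [hs] using this)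
        (by
          intro k hk
          cases l' with
          | nil => simp at hk
          | cons k' l =>
            obtain rfl : k' = k := by simpa using hk
            exact (List.isChain_cons_cons.mp hc.tail).1)
      have h7 := bq' (h := opp k) h1
      simp only [ed_opp, sd_opp, hs, ← hx] at h7
      obtain ⟨a, ha, e'⟩ := (h7.trans h5.orb_pt).trans (bq' h4).symm
      rw [e, σ.pt_main] at e'
      exact T2 _ _ hg (IsCancelSMul.right_cancel _ _ _ e' ▸ ha)

theorem IsPath.map {σ' : St2 μ A a1 a2 b} {ρ : X × U → X × U} (hN : ∀ u v, σ.N u v → σ'.N u v)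
    (hρ : ∀ e ∈ σ.B, ρ e ∈ σ'.B ∧ σ'.q (ρ e) = σ.q e ∧ ∀ t, σ'.N (σ.en t e) (σ'.en t (ρ e)))
    (hp : σ.IsPath u l v) : σ'.IsPath u (l.map fun h => hf (ρ (ed h)) h.2.2) v := by
  induction hp with
  | nil h => exact .nil (hN _ _ h)
  | cons h1 h2 _ ih =>
    exact .cons (hρ _ h1).1 ((hN _ _ h2).trans ((hρ _ h1).2.2 _))
      (IsPath.pre ((hρ _ h1).2.2 _).symm ih)

theorem IsPath.mem_B (hp : σ.IsPath u l v) : ∀ h ∈ l, ed h ∈ σ.B := by
  induction hp with
  | nil h => simp
  | cons h1 _ _ ih =>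
    intro k hk
    rcases List.mem_cons.mp hk with rfl | hk
    · exact h1
    · exact ih k hk

theorem IsPath.fold {σ' : St2 μ A a1 a2 b} {ρ : X × U → X × U} (hN : ∀ u v, σ.N u v → σ'.N u v)
    (hρ : ∀ e ∈ σ.B, ρ e ∈ σ'.B ∧ σ'.q (ρ e) = σ.q e ∧ ∀ t, σ'.N (σ.en t e) (σ'.en t (ρ e)))
    (hf' : ∀ e ∈ σ.C, ∀ e' ∈ σ.C, σ.q e = σ.q e' → σ.N (σ.en h'.2.2 e) (σ.en h'.2.2 e') →
      ρ e = ρ e') (hu : σ.M u) (hv : σ.M v) (ht : σ.TB h h')
    (hp : σ.IsPath u (l1 ++ h :: h' :: l2) v) :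
    ∃ l' : List (X × (U × Bool)), l'.length < (l1 ++ h :: h' :: l2).length ∧ σ'.IsPath u l' v := by
  by_cases hc : (l1 ++ h :: h' :: l2).IsChain fun h h' => h' ≠ opp h
  · have hcore := hp.core hv hc (by
      generalize l1 ++ h :: h' :: l2 = l at hp
      intro k hk
      cases hp with
      | nil => simp at hk
      | cons h1 h2 h3 =>
        obtain rfl := by simpa using hk
        exact Sup.main (M.of h2.symm hu))
    have e1 : ρ (ed h) = ρ (ed h') := hf' _ (hcore _ (by simp)) _ (hcore _ (by simp)) ht.1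
      (by have := hp.mid; rw [Geo.ve, sd_opp, ← ht.2] at this; exact this)
    have := hp.map hN hρ
    simp only [List.map_append, List.map_cons] at this
    rw [← e1, ht.2, ← opp_hf] at this
    exact ⟨_, by simp, this.shorten⟩
  · rw [List.isChain_iff_forall_rel_of_append_cons_cons] at hc
    push Not at hc
    obtain ⟨k, k', m1, m2, e, rfl⟩ := hc
    rw [e] at hp ⊢
    exact ⟨_, by simp, hp.shorten.map hN hρ⟩

variable [Countable G] [MeasurableSpace G] [DiscreteMeasurableSpace G] [MeasurableSMul₂ G X]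
  [IsProbabilityMeasure μ] [SMulInvariantMeasure G X μ]

theorem D_small {d : ℝ≥0∞} (hd : d < 1 / 4000) (σ : St2 μ A a1 a2 b)
    (hbud : nu μ U σ.E ≤ nu μ U σ.W + 1 + d) : μ σ.D ≤ 1 / 500 := by
  refine (σ.budget (ε := 1 / 20000) hd.ne_top (by simp) hbud).trans ?_
  calc 6 * (d + 1 / 20000) ≤ 6 * (1 / 4000 + 1 / 20000) := by gcongr
    _ ≤ 1 / 500 := by
      rw [← ENNReal.toReal_le_toReal (ENNReal.mul_ne_top (by simp) (by simp)) (by simp),
        ENNReal.toReal_mul, ENNReal.toReal_add (by simp) (by simp)]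
      norm_num

theorem stage2 (hne : a1 ≠ a2) (T2 : ∀ s g, Red2 A b s g → g ∉ A)
    (gap : ∀ T, MeasurableSet T → 1 / 4 ≤ μ T → μ T ≤ 1 / 2 → (1 / 100 : ℝ≥0∞) ≤
      μ (T \ (fun x => (a1 * b) • x) ⁻¹' T) + μ (T \ (fun x => (a2 * b) • x) ⁻¹' T))
    {d : ℝ≥0∞} (hd : d < 1 / 4000) (k : ℕ) : ∀ σ : St2 μ A a1 a2 b,
      nu μ U σ.E ≤ nu μ U σ.W + 1 + d → μ σ.T < 1 / 4 →
      μ {x | x ∈ σ.T ∨ ∃ l : List (X × (U × Bool)), l.length < k ∧
        σ.IsPath (x, σ.i0) l (b • x, σ.i0)} ≤ 1 / 4 := by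
  have step : ∀ σ σ' : St2 μ A a1 a2 b, nu μ U σ.E ≤ nu μ U σ.W + 1 + d →
      nu μ U σ'.E ≤ nu μ U σ'.W + 1 + d → μ σ.T < 1 / 4 →
      σ'.T ⊆ σ.T ∪ σ'.D ∪ σ.D ∪ (fun x => (a1 * b) • x) ⁻¹' σ.D → μ σ'.T < 1 / 4 := by
    intro σ σ' h1 h2 h3 h4
    have d1 := D_small hd σ h1
    have d2 := D_small hd σ' h2
    refine σ'.notMid hne gap d2 ((measure_mono h4).trans ?_)
    calc _ ≤ μ σ.T + μ σ'.D + μ σ.D + μ ((fun x => (a1 * b) • x) ⁻¹' σ.D) :=
          (measure_union_le _ _).trans (add_le_add ((measure_union_le _ _).trans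
            (add_le_add (measure_union_le _ _) le_rfl)) le_rfl)
      _ ≤ 1 / 4 + 1 / 500 + 1 / 500 + 1 / 500 := by
        rw [measure_preimage_smul]; gcongr
      _ ≤ 1 / 2 := by
        rw [← ENNReal.toReal_le_toReal (by simp) (by simp), ENNReal.toReal_add (by simp) (by simp),
          ENNReal.toReal_add (by simp) (by simp), ENNReal.toReal_add (by simp) (by simp)]
        norm_num
  have mono : ∀ (σ σ' : St2 μ A a1 a2 b) (ρ : X × U → X × U), σ'.i0 = σ.i0 →
      (∀ u v, σ.N u v → σ'.N u v) →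
      (∀ e ∈ σ.B, ρ e ∈ σ'.B ∧ σ'.q (ρ e) = σ.q e ∧ ∀ t, σ'.N (σ.en t e) (σ'.en t (ρ e))) →
      σ.T ⊆ σ'.T := by
    rintro σ σ' ρ i hN hρ x ⟨e, he, hq, hm⟩
    refine ⟨ρ e, (hρ e he).1, (hρ e he).2.1.trans hq, fun t => ?_⟩
    obtain ⟨z, hz⟩ := hm t
    exact ⟨z, ((hρ e he).2.2 t).symm.trans (by rw [i]; exact hN _ _ hz)⟩
  induction k with
  | zero =>
    intro σ _ h
    simpa using h.le
  | succ k ih =>
    intro σ hb hT
    obtain ⟨σ1, ρ1, w1, e1, i1, n1, r1, f1, t1⟩ := σ.fold false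
    have hb1 : nu μ U σ1.E ≤ nu μ U σ1.W + 1 + d := by rwa [w1, e1]
    obtain ⟨σ2, ρ2, w2, e2, i2, n2, r2, f2, t2⟩ := σ1.fold true
    have hb2 : nu μ U σ2.E ≤ nu μ U σ2.W + 1 + d := by rwa [w2, e2]
    refine le_trans (measure_mono ?_) (ih σ2 hb2 (step _ _ hb1 hb2 (step _ _ hb hb1 hT t1) t2))
    have hT2 : σ.T ⊆ σ2.T := (mono _ _ _ i1 n1 r1).trans (mono _ _ _ i2 n2 r2)
    rintro x (hx | ⟨l, hl, hp⟩)
    · exact Or.inl (hT2 hx)
    rcases hp.cases_T T2 with hx | ⟨l1, h, h', l2, rfl, ht⟩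
    · exact Or.inl (hT2 hx)
    right
    rw [i2, i1]
    cases hs : h'.2.2
    · obtain ⟨l', h1, h2⟩ := hp.fold n1 r1 (by rw [hs]; exact f1) ⟨_, N.refl⟩ ⟨_, N.refl⟩ ht
      exact ⟨_, by simp only [List.length_map]; omega, h2.map n2 r2⟩
    · have hp1 := hp.map n1 r1
      simp only [List.map_append, List.map_cons] at hp1
      obtain ⟨l', h1, h2⟩ := hp1.fold (h := hf (ρ1 (ed h)) h.2.2)
        (h' := hf (ρ1 (ed h')) h'.2.2) n2 r2 (by simpa [hs] using f2) ⟨x, by rw [i1]; exact N.refl⟩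
        ⟨b • x, by rw [i1]; exact N.refl⟩
        ⟨by
          show σ1.q (ρ1 (ed h)) = σ1.q (ρ1 (ed h'))
          rw [(r1 _ (hp.mem_B _ (by simp))).2.1, (r1 _ (hp.mem_B _ (by simp))).2.1]
          exact ht.1, ht.2⟩
      refine ⟨l', ?_, h2⟩
      simp only [List.length_append, List.length_map, List.length_cons] at h1 hl
      omega

end St2

end Crest.Agent.H0291
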