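import Mathlib

set_option autoImplicit false

namespace Crest.Agent.H0291

variable {G : Type*} [Group G]

/-- Reduced alternating words `l₁ f₁ l₂ f₂ ⋯ l_k f_k` of an amalgam `Λ *_H F`. -/
inductive Red1 (F H Λ : Subgroup G) : G → Prop
  | base (l f : G) (hl : l ∈ Λ) (hl' : l ∉ H) (hf : f ∈ F) : Red1 F H Λ (l * f)
  | step (l f g : G) (hl : l ∈ Λ) (hl' : l ∉ H) (hf : f ∈ F) (hf' : f ∉ H) (hg : Red1 F H Λ g) :
      Red1 F H Λ (l * f * g)

/-- Reduced words `b^{±1} a₁ b^{±1} a₂ ⋯` of a free product `A * ⟨b⟩`; the Boolean is the sign of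
the first letter. -/
inductive Red2 (A : Subgroup G) (b : G) : Bool → G → Prop
  | base (s : Bool) (a : G) (ha : a ∈ A) : Red2 A b s ((if s then b else b⁻¹) * a)
  | step (s s' : Bool) (a g : G) (ha : a ∈ A) (h : a = 1 → s' = s) (hg : Red2 A b s' g) :
      Red2 A b s ((if s then b else b⁻¹) * a * g)

end Crest.Agent.H0291
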