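import Crest.Agent.H0291.LowGraph
import Crest.Agent.H0291.Red

set_option autoImplicit false
set_option linter.unusedSectionVars false
open MeasureTheory Set
open scoped ENNReal

namespace Crest.Agent.H0291

variable {G X : Type*} [Group G] [MulAction G X] [MeasurableSpace X] [StandardBorelSpace X]

/-- Copy of a set of objects in layer `n`. -/
def lay (n : ℕ) (A : Set (X × U)) : Set (X × U) := {e | ∃ j, e.2 = U.c n j ∧ (e.1, j) ∈ A}

@[simp] theorem mem_lay {n m : ℕ} {A : Set (X × U)} {x : X} {j : U} :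
    (x, U.c m j) ∈ lay n A ↔ m = n ∧ (x, j) ∈ A := by
  simp only [lay, mem_ofPred_eq, U.c.injEq]
  constructor
  · rintro ⟨j', ⟨h1, rfl⟩, h2⟩; exact ⟨h1, h2⟩
  · rintro ⟨h1, h2⟩; exact ⟨j, ⟨h1, rfl⟩, h2⟩

@[simp] theorem nil_notMem_lay {n : ℕ} {A : Set (X × U)} {x : X} : (x, U.nil) ∉ lay n A := by
  simp [lay]

theorem lay_cases {n : ℕ} {A : Set (X × U)} {e : X × U} (h : e ∈ lay n A) :
    ∃ x j, e = (x, U.c n j) ∧ (x, j) ∈ A := by
  obtain ⟨j, h1, h2⟩ := h
  exact ⟨e.1, j, by rw [← h1], h2⟩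

theorem meas_lay {n : ℕ} {A : Set (X × U)} (hA : MeasurableSet A) : MeasurableSet (lay n A) := by
  refine Measurable.setOf (Measurable.exists fun j => Measurable.and (by fun_prop) ?_)
  exact hA.mem.comp (f := fun e : X × U => (e.1, j)) (by fun_prop)

theorem nu_lay (μ : Measure X) {n : ℕ} {A : Set (X × U)} (hA : MeasurableSet A) :
    nu μ U (lay n A) = nu μ U A := by
  rw [nu_apply μ (meas_lay hA), nu_apply μ hA]
  have hinj : Function.Injective (U.c n) := fun a b h => by simpa using h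
  rw [← hinj.tsum_eq]
  · simp
  · intro u hu
    cases u with
    | nil => simp at hu
    | c m j =>
      by_cases h : m = n
      · exact ⟨j, by rw [h]⟩
      · simp [h] at hu

theorem lay_disjoint {n m : ℕ} (h : n ≠ m) (A B : Set (X × U)) : Disjoint (lay n A) (lay m B) := by
  rw [disjoint_left]
  intro e h1 h2
  obtain ⟨x, j, rfl, -⟩ := lay_cases h1
  exact h (mem_lay.mp h2).1

theorem nu_iUnion_lay (μ : Measure X) {A : ℕ → Set (X × U)} (hA : ∀ n, MeasurableSet (A n)) :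
    nu μ U (⋃ n, lay n (A n)) = ∑' n, nu μ U (A n) := by
  rw [measure_iUnion (fun n m h => lay_disjoint h _ _) fun n => meas_lay (hA n)]
  simp only [nu_lay μ (hA _)]

theorem nu_main (μ : Measure X) [IsProbabilityMeasure μ] (i : U) :
    nu μ U {v | v.2 = i} = 1 := by
  classical
  rw [nu_apply μ (Measurable.setOf (by fun_prop)), tsum_eq_single i]
  · simp
  · intro j hj; simp [hj]

variable {μ : Measure X}

namespace St

def Valid (σ : St G μ) (v : X × U) : Prop := v ∈ σ.W ∨ v.2 = σ.i0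

theorem valid_of_conn (σ : St G μ) {E : Set (X × U)} (hE : E ⊆ σ.E) {K : Subgroup G}
    {u v : X × U} (h : σ.Conn E K u v) : σ.Valid u ↔ σ.Valid v :=
  Geo.Conn.lift (r := Iff) (fun _ => Iff.rfl) (fun _ _ => Iff.symm) (fun _ _ _ => Iff.trans)
    σ.Valid (fun e he => ⟨fun _ => σ.en_valid e (hE he) _, fun _ => σ.en_valid e (hE he) _⟩)
    (fun _ _ _ => ⟨fun _ => Or.inr rfl, fun _ => Or.inr rfl⟩) h

theorem eq_of_invalid (σ : St G μ) {E : Set (X × U)} (hE : E ⊆ σ.E) {K : Subgroup G}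
    {u v : X × U} (hu : ¬ σ.Valid u) (h : σ.Conn E K u v) : u = v := by
  induction h using Relation.ReflTransGen.head_induction_on with
  | refl => rfl
  | head h _ _ =>
    rcases h with ⟨e, he, s, rfl, -⟩ | ⟨h1, -⟩
    · exact absurd (σ.en_valid e (hE he) s) hu
    · exact absurd (Or.inr h1) hu

/-- Two disjoint families of edges with labels in `K1` and `K2`. -/
structure Typed (σ : St G μ) (E1 E2 : Set (X × U)) (K1 K2 : Subgroup G) : Prop where
  m1 : MeasurableSet E1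
  m2 : MeasurableSet E2
  s1 : E1 ⊆ σ.E
  s2 : E2 ⊆ σ.E
  dis : Disjoint E1 E2
  l1 : ∀ e ∈ E1, Orb K1 (σ.pt (σ.en false e)) (σ.pt (σ.en true e))
  l2 : ∀ e ∈ E2, Orb K2 (σ.pt (σ.en false e)) (σ.pt (σ.en true e))

theorem Typed.symm {σ : St G μ} {E1 E2 : Set (X × U)} {K1 K2 : Subgroup G}
    (h : σ.Typed E1 E2 K1 K2) : σ.Typed E2 E1 K2 K1 :=
  ⟨h.m2, h.m1, h.s2, h.s1, h.dis.symm, h.l2, h.l1⟩

end St

variable [Countable G] [MeasurableSpace G] [DiscreteMeasurableSpace G]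
  [MeasurableSMul₂ G X] [IsProbabilityMeasure μ]
  [SMulInvariantMeasure G X μ] [IsCancelSMul G X]

open Classical in
/-- End points after a slide. -/
noncomputable def slideEn (γ : Geo G X) (E2 : Set (X × U)) (r : X × U → X × U) (s : Bool) :
    X × U → X × U
  | (x, .nil) => (x, γ.i0)
  | (x, .c 0 j) => if (x, j) ∈ E2 then r (γ.en s (x, j)) else γ.en s (x, j)
  | (x, .c (_ + 1) i) => if s then (γ.pt (x, i), γ.i0) else (x, i)

noncomputable def slideGeo (γ : Geo G X) (E2 : Set (X × U)) (r : X × U → X × U)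
    (m2 : MeasurableSet E2) (hr : Measurable r) (ho : ∀ v, Orb (⊤ : Subgroup G) v.1 (r v).1) :
    Geo G X where
  i0 := γ.i0
  pt := γ.pt
  en := slideEn γ E2 r
  pt_meas := γ.pt_meas
  pt_orb := γ.pt_orb
  pt_main := γ.pt_main
  en_meas s := by
    refine measurable_from_prod_countable_left fun j => ?_
    rcases j with _ | ⟨_ | n, j⟩
    · simp only [slideEn]; fun_prop
    · simp only [slideEn]
      exact Measurable.ite (m2.preimage (f := fun x => (x, j)) (by fun_prop)) (by fun_prop)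
        (by fun_prop)
    · cases s <;> simp only [slideEn] <;> simp <;> fun_prop
  en_orb s e := by
    rcases e with ⟨x, _ | ⟨_ | n, j⟩⟩
    · exact Orb.refl _ _
    · simp only [slideEn]
      split_ifs
      · exact (γ.en_orb s (x, j)).trans (ho _)
      · exact γ.en_orb s (x, j)
    · simp only [slideEn]
      split_ifs
      · exact γ.pt_orb (x, j)
      · exact Orb.refl _ _

theorem slide (σ : St G μ) {E1 E2 : Set (X × U)} {H K1 K2 Fr1 Fr2 : Subgroup G}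
    (ht : σ.Typed E1 E2 K1 K2) (hH1 : H ≤ Fr1) (hH2 : H ≤ Fr2) (hK2 : H ≤ K2)
    {ε : ℝ≥0∞} (hε : 0 < ε) :
    ∃ (σ' : St G μ) (E1' E2' : Set (X × U)) (r : X × U → X × U), σ'.Typed E1' E2' K1 K2 ∧
      σ'.W = σ.W ∧ σ'.i0 = σ.i0 ∧ σ'.pt = σ.pt ∧ nu μ U σ'.E ≤ nu μ U σ.E + ε ∧
      (∀ x, r (x, σ.i0) = (x, σ.i0)) ∧ (∀ v, Orb H (σ.pt v) (σ.pt (r v))) ∧
      (∀ u v, σ.Conn E1 Fr1 u v → σ'.Conn E1' Fr1 (r u) (r v)) ∧
      (∀ u v, σ.Conn E2 Fr2 u v → σ'.Conn E2' Fr2 (r u) (r v)) ∧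
      (∀ u v, σ.Conn E1 Fr1 u v → Orb H (σ.pt u) (σ.pt v) → σ'.Conn E2' Fr2 (r u) (r v)) := by
  classical
  let ρ : X × U → X × U → Prop := fun u v => σ.Conn E1 Fr1 u v ∧ Orb H (σ.pt u) (σ.pt v)
  have hρ : ∀ {Z : Type _} [MeasurableSpace Z] {f f' : Z → X × U}, Measurable f → Measurable f' →
      Measurable fun z => ρ (f z) (f' z) := fun hf hf' =>
    (Geo.meas_conn ht.m1 hf hf').and (by fun_prop)
  have ρo : ∀ a b, ρ a b → Orb (⊤ : Subgroup G) a.1 b.1 := fun a b h => h.1.orb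
  have ρs : ∀ a b, ρ a b → ρ b a := fun a b h => ⟨h.1.symm, h.2.symm⟩
  have ρt : ∀ a b c, ρ a b → ρ b c → ρ a c := fun a b c h h' => ⟨h.1.trans h'.1, h.2.trans h'.2⟩
  have ρr : ∀ a, ρ a a := fun a => ⟨Geo.Conn.refl, Orb.refl _ _⟩
  have hV : MeasurableSet {v | σ.Valid v} := σ.W_meas.union (Measurable.setOf (by fun_prop))
  have hVfin : nu μ U {v | σ.Valid v} ≠ ⊤ := by
    refine ne_top_of_le_ne_top ?_ (measure_union_le σ.W {v | v.2 = σ.i0})
    rw [nu_main]
    simp [σ.W_fin]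
  obtain ⟨S0, S, mS0, mS, -, hSV, hSε, hS, hS0⟩ := exists_section μ G hV hVfin
    (hρ measurable_fst measurable_snd) ρo (fun a _ => ρr a) ρs ρt hε
  let Mn : X × U → Prop := fun v =>
    σ.Conn E1 Fr1 v (σ.pt v, σ.i0) ∨ ∃ s, s ∈ S \ S0 ∧ ρ v s
  have mMn : Measurable Mn := by
    refine (Geo.meas_conn ht.m1 measurable_id (by fun_prop)).or ?_
    exact meas_ex G (π := Prod.fst) measurable_fst
      (((mS.diff mS0).mem.comp measurable_snd).and (hρ measurable_fst measurable_snd))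
      fun z b h => ρo _ _ h.2
  have MnC : ∀ u v, ρ u v → Mn u → Mn v := by
    rintro u v h (h1 | ⟨s, hs, h1⟩)
    · exact Or.inl ((h.1.symm.trans h1).trans (Geo.Conn.free (h.2.mono hH1)))
    · exact Or.inr ⟨s, hs, ρt _ _ _ (ρs _ _ h) h1⟩
  obtain ⟨r, mr, hr⟩ := exists_sel G (J := U) (π := Prod.fst) measurable_fst
    (P := fun v m => (Mn v ∧ m = (σ.pt v, σ.i0)) ∨ (¬ Mn v ∧ σ.Valid v ∧ m ∈ S0 ∧ ρ v m) ∨
      (¬ σ.Valid v ∧ ¬ Mn v ∧ m = v))
    (by
      have h1 : Measurable fun q : (X × U) × (X × U) => Mn q.1 := mMn.comp measurable_fst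
      have h2 : Measurable fun q : (X × U) × (X × U) => σ.Valid q.1 := hV.mem.comp measurable_fst
      have h3 : Measurable fun q : (X × U) × (X × U) => q.2 ∈ S0 := mS0.mem.comp measurable_snd
      have h4 := hρ (Z := (X × U) × (X × U)) measurable_fst measurable_snd
      fun_prop)
    (by
      rintro z b (⟨-, rfl⟩ | ⟨-, -, -, h⟩ | ⟨-, -, rfl⟩)
      · exact σ.pt_orb z
      · exact ρo _ _ h
      · exact Orb.refl _ _)
    (by
      intro v
      by_cases h1 : Mn v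
      · exact ⟨_, Or.inl ⟨h1, rfl⟩⟩
      · by_cases h2 : σ.Valid v
        · obtain ⟨s, hs, h3⟩ := hS v h2
          refine ⟨s, Or.inr (Or.inl ⟨h1, h2, ?_, h3⟩)⟩
          by_contra h4
          exact h1 (Or.inr ⟨s, ⟨hs, h4⟩, h3⟩)
        · exact ⟨_, Or.inr (Or.inr ⟨h2, h1, rfl⟩)⟩)
  have rMn : ∀ v, Mn v → r v = (σ.pt v, σ.i0) := by
    intro v hv
    rcases hr v with h | h | h
    · exact h.2
    · exact absurd hv h.1
    · exact absurd hv h.2.1
  have rmain : ∀ x, r (x, σ.i0) = (x, σ.i0) := fun x => by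
    rw [rMn _ (Or.inl (by rw [σ.pt_main]; exact Geo.Conn.refl)), σ.pt_main]
  have rH : ∀ v, Orb H (σ.pt v) (σ.pt (r v)) := by
    intro v
    rcases hr v with h | h | h
    · rw [h.2, σ.pt_main]; exact Orb.refl _ _
    · exact h.2.2.2.2
    · rw [h.2.2]; exact Orb.refl _ _
  have ro : ∀ v, Orb (⊤ : Subgroup G) v.1 (r v).1 := fun v =>
    ((σ.pt_orb v).trans (rH v).top).trans (σ.pt_orb _).symm
  have rV : ∀ v, σ.Valid v → σ.Valid (r v) := by
    intro v hv
    rcases hr v with h | h | h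
    · rw [h.2]; exact Or.inr rfl
    · exact (σ.valid_of_conn ht.s1 h.2.2.2.1).mp hv
    · exact absurd hv h.1
  let γ := slideGeo σ.toGeo E2 r ht.m2 mr ro
  have en1 : ∀ s x j, (x, j) ∉ E2 → γ.en s (x, .c 0 j) = σ.en s (x, j) := fun s x j h => by
    simp [γ, slideGeo, slideEn, h]
  have en2 : ∀ s x j, (x, j) ∈ E2 → γ.en s (x, .c 0 j) = r (σ.en s (x, j)) := fun s x j h => by
    simp [γ, slideGeo, slideEn, h]
  have en3 : ∀ x i, γ.en false (x, .c 1 i) = (x, i) := fun x i => rfl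
  have en4 : ∀ x i, γ.en true (x, .c 1 i) = (σ.pt (x, i), σ.i0) := fun x i => rfl
  have P1 : ∀ u v, σ.Conn E1 Fr1 u v → γ.Conn (lay 0 E1 ∪ lay 1 (S \ S0)) Fr1 u v := by
    intro u v h
    refine Geo.Conn.lift (γ := σ.toGeo) (r := γ.Conn (lay 0 E1 ∪ lay 1 (S \ S0)) Fr1)
      (fun _ => Geo.Conn.refl)
      (fun _ _ => Geo.Conn.symm) (fun _ _ _ => Geo.Conn.trans) id ?_
      (fun _ _ h => Geo.Conn.free h) h
    rintro ⟨x, j⟩ he
    have h2 : (x, j) ∉ E2 := disjoint_left.mp ht.dis he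
    simp only [id, ← en1 _ x j h2]
    exact Geo.Conn.edge (Or.inl (by simpa using he)) _ _
  have P2 : ∀ v, γ.Conn (lay 0 E1 ∪ lay 1 (S \ S0)) Fr1 v (r v) := by
    intro v
    rcases hr v with h | h | h
    · rw [h.2]
      rcases h.1 with h1 | ⟨⟨x, i⟩, hs, h1⟩
      · exact P1 _ _ h1
      · refine (P1 _ _ h1.1).trans (Geo.Conn.trans ?_ (Geo.Conn.free (h1.2.symm.mono hH1)))
        rw [← en3 x i]
        exact Geo.Conn.edge (e := (x, .c 1 i)) (Or.inr (by simpa using hs)) false true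
    · exact P1 _ _ h.2.2.2.1
    · rw [h.2.2]; exact Geo.Conn.refl
  have hsub : lay 0 E1 ∪ lay 1 (S \ S0) ⊆ lay 0 σ.E ∪ lay 1 (S \ S0) := by
    refine union_subset_union_left _ fun e he => ?_
    obtain ⟨x, j, rfl, h⟩ := lay_cases he
    simpa using ht.s1 h
  let σ' : St G μ :=
    { toGeo := γ
      W := σ.W
      E := lay 0 σ.E ∪ lay 1 (S \ S0)
      W_meas := σ.W_meas
      E_meas := (meas_lay σ.E_meas).union (meas_lay (mS.diff mS0))
      W_main := σ.W_main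
      W_fin := σ.W_fin
      en_valid := by
        rintro e (he | he) s
        · obtain ⟨x, j, rfl, h⟩ := lay_cases he
          by_cases h2 : (x, j) ∈ E2
          · rw [en2 s x j h2]; exact rV _ (σ.en_valid _ h s)
          · rw [en1 s x j h2]; exact σ.en_valid _ h s
        · obtain ⟨x, j, rfl, h⟩ := lay_cases he
          cases s
          · exact hSV h.1
          · exact Or.inr rfl
      conn := by
        intro w hw
        obtain ⟨y, hy⟩ := σ.conn w hw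
        refine ⟨y, Geo.Conn.lift (γ := σ.toGeo) (r := γ.Conn (lay 0 σ.E ∪ lay 1 (S \ S0)) ⊤)
          (fun _ => Geo.Conn.refl) (fun _ _ => Geo.Conn.symm) (fun _ _ _ => Geo.Conn.trans) id ?_
          (fun _ _ h => Geo.Conn.free h) hy⟩
        rintro ⟨x, j⟩ he
        have hc := Geo.Conn.edge (γ := γ) (K := ⊤) (E := lay 0 σ.E ∪ lay 1 (S \ S0))
          (e := (x, .c 0 j)) (Or.inl (by simpa using he)) false true
        by_cases h2 : (x, j) ∈ E2
        · rw [en2 _ x j h2, en2 _ x j h2] at hc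
          exact (((P2 _).mono hsub le_top).trans hc).trans ((P2 _).mono hsub le_top).symm
        · rwa [en1 _ x j h2, en1 _ x j h2] at hc }
  refine ⟨σ', lay 0 E1 ∪ lay 1 (S \ S0), lay 0 E2, r, ⟨(meas_lay ht.m1).union
    (meas_lay (mS.diff mS0)), meas_lay ht.m2, hsub, ?_, ?_, ?_, ?_⟩, rfl, rfl, rfl, ?_, rmain, rH,
    fun u v h => ((P2 u).symm.trans (P1 u v h)).trans (P2 v), fun u v h => ?_, fun u v h h' => ?_⟩
  · intro e he
    obtain ⟨x, j, rfl, h⟩ := lay_cases he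
    exact Or.inl (by simpa using ht.s2 h)
  · rw [disjoint_right]
    intro e he
    obtain ⟨x, j, rfl, h⟩ := lay_cases he
    simpa using disjoint_right.mp ht.dis h
  · rintro e (he | he)
    · obtain ⟨x, j, rfl, h⟩ := lay_cases he
      have h2 : (x, j) ∉ E2 := disjoint_left.mp ht.dis h
      show Orb K1 (σ.pt (γ.en false _)) (σ.pt (γ.en true _))
      rw [en1 _ x j h2, en1 _ x j h2]
      exact ht.l1 _ h
    · obtain ⟨x, j, rfl, h⟩ := lay_cases he
      show Orb K1 (σ.pt (γ.en false _)) (σ.pt (γ.en true _))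
      rw [en3, en4, σ.pt_main]
      exact Orb.refl _ _
  · intro e he
    obtain ⟨x, j, rfl, h⟩ := lay_cases he
    show Orb K2 (σ.pt (γ.en false _)) (σ.pt (γ.en true _))
    rw [en2 _ x j h, en2 _ x j h]
    exact (((rH _).symm.mono hK2).trans (ht.l2 _ h)).trans ((rH _).mono hK2)
  · refine (measure_union_le _ _).trans ?_
    rw [nu_lay μ σ.E_meas, nu_lay μ (mS.diff mS0)]
    gcongr
  · refine Geo.Conn.lift (r := γ.Conn (lay 0 E2) Fr2) (fun _ => Geo.Conn.refl)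
      (fun _ _ => Geo.Conn.symm) (fun _ _ _ => Geo.Conn.trans) r ?_ ?_ h
    · rintro ⟨x, j⟩ he
      rw [← en2 _ x j he, ← en2 _ x j he]
      exact Geo.Conn.edge (by simpa using he) _ _
    · intro x y hxy
      rw [rmain, rmain]
      exact Geo.Conn.free hxy
  · have hρuv : ρ u v := ⟨h, h'⟩
    by_cases hM : Mn u
    · rw [rMn u hM, rMn v (MnC _ _ hρuv hM)]
      exact Geo.Conn.free (γ := γ) (h'.mono hH2)
    · have hM' : ¬ Mn v := fun hv => hM (MnC _ _ (ρs _ _ hρuv) hv)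
      by_cases hu : σ.Valid u
      · have hv := (σ.valid_of_conn ht.s1 h).mp hu
        have h1 : r u ∈ S0 ∧ ρ u (r u) := by
          rcases hr u with h | h | h
          · exact absurd h.1 hM
          · exact h.2.2
          · exact absurd hu h.1
        have h2 : r v ∈ S0 ∧ ρ v (r v) := by
          rcases hr v with h | h | h
          · exact absurd h.1 hM'
          · exact h.2.2
          · exact absurd hv h.1
        rw [hS0 _ h1.1 _ h2.1 (ρt _ _ _ (ρs _ _ h1.2) (ρt _ _ _ hρuv h2.2))]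
        exact Geo.Conn.refl
      · rw [σ.eq_of_invalid ht.s1 hu h]
        exact Geo.Conn.refl

/-- Alternating chains with `k` segments of the second kind. -/
inductive Ch {α : Type*} (P Q : α → α → Prop) : ℕ → α → α → Prop
  | base {u v : α} : P u v → Ch P Q 0 u v
  | step {k : ℕ} {u u' v' v : α} : P u u' → Q u' v' → Ch P Q k v' v → Ch P Q (k + 1) u v

theorem Ch.consP {α : Type*} {P Q : α → α → Prop} (ht : ∀ a b c, P a b → P b c → P a c)
    {k : ℕ} {u w v : α} (h : P u w) (h' : Ch P Q k w v) : Ch P Q k u v := by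
  cases h' with
  | base h1 => exact .base (ht _ _ _ h h1)
  | step h1 h2 h3 => exact .step (ht _ _ _ h h1) h2 h3

theorem Ch.map {α : Type*} {P Q P' Q' : α → α → Prop} (r : α → α)
    (h1 : ∀ a b, P a b → P' (r a) (r b)) (h2 : ∀ a b, Q a b → Q' (r a) (r b))
    {k : ℕ} {u v : α} (h : Ch P Q k u v) : Ch P' Q' k (r u) (r v) := by
  induction h with
  | base h => exact .base (h1 _ _ h)
  | step h h' _ ih => exact .step (h1 _ _ h) (h2 _ _ h') ih

theorem ch_reduce {α : Type*} {P Q P' Q' : α → α → Prop} {F H Λ : Subgroup G} (pt : α → X)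
    (r : α → α) (hP : ∀ a b, P a b → Orb F (pt a) (pt b)) (hQ : ∀ a b, Q a b → Orb Λ (pt a) (pt b))
    (tP : ∀ a b c, P' a b → P' b c → P' a c) (tQ : ∀ a b c, Q' a b → Q' b c → Q' a c)
    (h1 : ∀ a b, P a b → P' (r a) (r b)) (h2 : ∀ a b, Q a b → Q' (r a) (r b))
    (h3 : ∀ a b, Q a b → Orb H (pt a) (pt b) → P' (r a) (r b))
    (h4 : ∀ a b, P a b → Orb H (pt a) (pt b) → Q' (r a) (r b))
    {k : ℕ} {u' v' v : α} (hq : Q u' v') (h : Ch P Q k v' v) :
    (∀ u, P u u' → Ch P' Q' k (r u) (r v)) ∨ ∃ g, Red1 F H Λ g ∧ pt u' = g • pt v := by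
  induction h generalizing u' with
  | @base v' v hp =>
    by_cases hH : Orb H (pt u') (pt v')
    · exact Or.inl fun u hu => .base (tP _ _ _ (tP _ _ _ (h1 _ _ hu) (h3 _ _ hq hH)) (h1 _ _ hp))
    · obtain ⟨l, hl, e1⟩ := (hQ _ _ hq).symm
      obtain ⟨f, hf, e2⟩ := (hP _ _ hp).symm
      refine Or.inr ⟨l * f, .base l f hl (fun h => hH (Orb.symm ⟨l, h, e1⟩)) hf, ?_⟩
      rw [mul_smul, ← e2, ← e1]
  | @step k v' u2 v2 v hp hq2 hc ih =>
    by_cases hH : Orb H (pt u') (pt v')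
    · exact Or.inl fun u hu => Ch.consP tP (tP _ _ _ (h1 _ _ hu) (h3 _ _ hq hH))
        ((Ch.step hp hq2 hc).map r h1 h2)
    by_cases hH' : Orb H (pt v') (pt u2)
    · exact Or.inl fun u hu => .step (h1 _ _ hu)
        (tQ _ _ _ (tQ _ _ _ (h2 _ _ hq) (h4 _ _ hp hH')) (h2 _ _ hq2)) (hc.map r h1 h2)
    rcases ih hq2 with h | ⟨g, hg, e3⟩
    · exact Or.inl fun u hu => .step (h1 _ _ hu) (h2 _ _ hq) (h _ hp)
    · obtain ⟨l, hl, e1⟩ := (hQ _ _ hq).symm
      obtain ⟨f, hf, e2⟩ := (hP _ _ hp).symm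
      refine Or.inr ⟨l * f * g, .step l f g hl (fun h => hH (Orb.symm ⟨l, h, e1⟩)) hf
        (fun h => hH' (Orb.symm ⟨f, h, e2⟩)) hg, ?_⟩
      rw [mul_smul, mul_smul, ← e3, ← e2, ← e1]

/-- Stage 1: removing the `Λ`-segments. -/
theorem stage1 {F H Λ : Subgroup G} {b : G} (hHF : H ≤ F) (hHΛ : H ≤ Λ) (hb : b ∈ F)
    (T1 : ∀ g, Red1 F H Λ g → g ∉ F) (d0 c : ℝ≥0∞)
    (H2 : ∀ (σ : St G μ) (E1 E2 : Set (X × U)) (d : ℝ≥0∞), σ.Typed E1 E2 F Λ → d < d0 →
      nu μ U σ.E ≤ nu μ U σ.W + d → μ {x | σ.Conn E1 H (x, σ.i0) (b • x, σ.i0)} ≤ c)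
    (k : ℕ) : ∀ (σ : St G μ) (E1 E2 : Set (X × U)) (d : ℝ≥0∞), σ.Typed E1 E2 F Λ → d < d0 →
      nu μ U σ.E ≤ nu μ U σ.W + d →
      μ {x | ∃ j ≤ k, Ch (σ.Conn E1 H) (σ.Conn E2 Λ) j (x, σ.i0) (b • x, σ.i0)} ≤ c := by
  induction k with
  | zero =>
    intro σ E1 E2 d ht hd hbud
    refine le_trans (measure_mono ?_) (H2 σ E1 E2 d ht hd hbud)
    rintro x ⟨j, hj, h⟩
    obtain rfl : j = 0 := by omega
    cases h with
    | base h => exact h
  | succ k ih =>
    intro σ E1 E2 d ht hd hbud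
    obtain ⟨ε, hε, hε'⟩ := ENNReal.lt_iff_exists_add_pos_lt.mp hd
    have hε2 : (0 : ℝ≥0∞) < (ε : ℝ≥0∞) / 2 := ENNReal.half_pos (by simpa using hε.ne')
    obtain ⟨σ1, E2', E1', r1, ht1, w1, i1, p1, n1, m1, o1, a1, b1, c1⟩ :=
      slide σ (Fr1 := Λ) (Fr2 := H) ht.symm hHΛ le_rfl hHF hε2
    obtain ⟨σ2, E1'', E2'', r2, ht2, w2, i2, p2, n2, m2, o2, a2, b2, c2⟩ :=
      slide σ1 (Fr1 := H) (Fr2 := Λ) ht1.symm le_rfl hHΛ hHΛ hε2
    refine le_trans (measure_mono ?_) (ih σ2 E1'' E2'' (d + ε) ht2 hε' ?_)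
    · rintro x ⟨j, hj, h⟩
      have hm : ∀ y, (r2 ∘ r1) (y, σ.i0) = (y, σ2.i0) := fun y => by
        simp only [Function.comp, m1]
        rw [← i1, m2, i2]
      have q1 : ∀ u v, σ.Conn E1 H u v → σ2.Conn E1'' H ((r2 ∘ r1) u) ((r2 ∘ r1) v) :=
        fun u v h => a2 _ _ (b1 _ _ h)
      have q2 : ∀ u v, σ.Conn E2 Λ u v → σ2.Conn E2'' Λ ((r2 ∘ r1) u) ((r2 ∘ r1) v) :=
        fun u v h => b2 _ _ (a1 _ _ h)
      rcases Nat.lt_or_ge j (k + 1) with hj' | hj'
      · refine ⟨j, by omega, ?_⟩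
        rw [← hm, ← hm]
        exact h.map _ q1 q2
      obtain rfl : j = k + 1 := by omega
      cases h with
      | @step _ _ u' v' _ hp hq hc =>
        rcases ch_reduce (F := F) (H := H) (Λ := Λ) (P' := σ2.Conn E1'' H)
          (Q' := σ2.Conn E2'' Λ) σ.pt (r2 ∘ r1)
          (fun _ _ h => h.orb_pt ht.l1 hHF) (fun _ _ h => h.orb_pt ht.l2 le_rfl)
          (fun _ _ _ => Geo.Conn.trans) (fun _ _ _ => Geo.Conn.trans) q1 q2
          (fun u v h h' => a2 _ _ (c1 _ _ h h'))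
          (fun u v h h' => c2 _ _ (b1 _ _ h)
            (by rw [p1]; exact ((o1 u).symm.trans h').trans (o1 v))) hq hc with h | ⟨g, hg, e⟩
        · refine ⟨k, le_rfl, ?_⟩
          rw [← hm, ← hm]
          exact h _ hp
        · exfalso
          obtain ⟨f, hf, e2⟩ := hp.orb_pt ht.l1 hHF
          rw [σ.pt_main] at e e2
          rw [e, ← mul_smul] at e2
          have := IsCancelSMul.right_cancel _ _ _ e2
          exact T1 g hg (by rw [eq_mul_inv_of_mul_eq this]; exact F.mul_mem hf (F.inv_mem hb))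
    · rw [w2, w1]
      calc nu μ U σ2.E ≤ nu μ U σ.E + ε / 2 + ε / 2 := n2.trans (by gcongr)
        _ ≤ nu μ U σ.W + d + ε / 2 + ε / 2 := by gcongr
        _ = _ := by rw [add_assoc, ENNReal.add_halves, add_assoc]

end Crest.Agent.H0291
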