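import Crest.Agent.H0291.LowSlide

set_option autoImplicit false
set_option linter.unusedSectionVars false
open MeasureTheory Set
open scoped ENNReal

namespace Crest.Agent.H0291

variable {G X : Type*} [Group G] [MulAction G X] [MeasurableSpace X] [StandardBorelSpace X]

theorem exists_word (L : Set G) (hsym : ∀ g ∈ L, g⁻¹ ∈ L) (h1 : (1 : G) ∈ L) (g : G) :
    ∃ n : ℕ, ∃ pp : ℕ → G, 1 ≤ n ∧ pp 0 = 1 ∧ pp n = g ∧
      (g ∈ Subgroup.closure L → ∀ k < n, pp (k + 1) * (pp k)⁻¹ ∈ L) := by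
  classical
  by_cases hg : g ∈ Subgroup.closure L
  · have key : ∀ x ∈ L, ∀ y : G, (∃ n : ℕ, ∃ pp : ℕ → G, 1 ≤ n ∧ pp 0 = 1 ∧ pp n = y ∧
        ∀ k < n, pp (k + 1) * (pp k)⁻¹ ∈ L) → ∃ n : ℕ, ∃ pp : ℕ → G, 1 ≤ n ∧ pp 0 = 1 ∧
        pp n = x * y ∧ ∀ k < n, pp (k + 1) * (pp k)⁻¹ ∈ L := by
      rintro x hx y ⟨n, pp, a1, a2, a3, a4⟩
      refine ⟨n + 1, fun k => if k ≤ n then pp k else x * y, by omega, by simpa using a2,
        by simp, fun k hk => ?_⟩
      by_cases h : k + 1 ≤ n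
      · simpa [h, show k ≤ n by omega] using a4 k (by omega)
      · obtain rfl : k = n := by omega
        simpa [a3] using hx
    suffices ∃ n : ℕ, ∃ pp : ℕ → G, 1 ≤ n ∧ pp 0 = 1 ∧ pp n = g ∧
        ∀ k < n, pp (k + 1) * (pp k)⁻¹ ∈ L by
      obtain ⟨n, pp, a1, a2, a3, a4⟩ := this
      exact ⟨n, pp, a1, a2, a3, fun _ => a4⟩
    induction hg using Subgroup.closure_induction_left with
    | one => exact ⟨1, fun _ => 1, le_rfl, rfl, rfl, fun _ _ => by simpa using h1⟩
    | mul_left x hx y _ ih => exact key x hx y ih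
    | inv_mul_cancel x hx y _ ih => exact key _ (hsym x hx) y ih
  · exact ⟨1, fun k => if k = 0 then 1 else g, le_rfl, by simp, by simp, fun h => absurd h hg⟩

theorem Geo.conn_iUnion {γ : Geo G X} {E : ℕ → Set (X × U)} (hE : Monotone E) {K : Subgroup G}
    {u v : X × U} (h : γ.Conn (⋃ n, E n) K u v) : ∃ n, γ.Conn (E n) K u v := by
  refine Geo.Conn.lift (r := fun a b => ∃ n, γ.Conn (E n) K a b) (fun _ => ⟨0, Geo.Conn.refl⟩)
    (fun _ _ ⟨n, h⟩ => ⟨n, h.symm⟩) ?_ id ?_ (fun _ _ h => ⟨0, Geo.Conn.free h⟩) h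
  · rintro a b c ⟨n, h⟩ ⟨m, h'⟩
    exact ⟨max n m, (h.mono (hE (le_max_left _ _)) le_rfl).trans
      (h'.mono (hE (le_max_right _ _)) le_rfl)⟩
  · intro e he
    obtain ⟨n, hn⟩ := mem_iUnion.mp he
    exact ⟨n, Geo.Conn.edge hn _ _⟩

variable [Countable G] [MeasurableSpace G] [DiscreteMeasurableSpace G] [MeasurableSMul₂ G X]
  [IsCancelSMul G X]

theorem Geo.exists_lab (γ : Geo G X) : ∃ lab : X × U → G, Measurable lab ∧
    ∀ e, γ.pt (γ.en true e) = lab e • γ.pt (γ.en false e) := by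
  have : ∀ e, ∃ g : G, γ.pt (γ.en true e) = g • γ.pt (γ.en false e) := by
    intro e
    obtain ⟨g, -, h⟩ := (((γ.pt_orb _).symm.trans (γ.en_orb false e).symm).trans
      (γ.en_orb true e)).trans (γ.pt_orb _)
    exact ⟨g, h⟩
  choose lab hlab using this
  refine ⟨lab, measurable_to_countable' fun g => ?_, hlab⟩
  have : lab ⁻¹' {g} = {e | γ.pt (γ.en true e) = g • γ.pt (γ.en false e)} := by
    ext e
    simp only [mem_preimage, mem_singleton_iff, mem_ofPred_eq]
    constructor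
    · rintro rfl; exact hlab e
    · intro h
      exact IsCancelSMul.right_cancel _ _ _ ((hlab e).symm.trans h)
  rw [this]
  exact Measurable.setOf (by fun_prop)

/-- Old objects in layer `0`. -/
def old (v : X × U) : X × U := (v.1, U.c 0 v.2)

@[fun_prop] theorem meas_old : Measurable (old : X × U → X × U) := by
  unfold old
  exact measurable_fst.prodMk (Measurable.of_discrete.comp measurable_snd)

/-- The `k`-th vertex on the subdivided edge `e`. -/
def node (γ : Geo G X) (n : X × U → ℕ) (e : X × U) (k : ℕ) : X × U :=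
  if k = 0 then old (γ.en false e) else if k < n e then (e.1, U.c k e.2) else old (γ.en true e)

def subPt (γ : Geo G X) (p : X × U → ℕ → G) : X × U → X
  | (x, .nil) => x
  | (x, .c 0 i) => γ.pt (x, i)
  | (x, .c (k + 1) j) => p (x, j) (k + 1) • γ.pt (γ.en false (x, j))

def subEn (γ : Geo G X) (n : X × U → ℕ) (s : Bool) : X × U → X × U
  | (x, .nil) => (x, .nil)
  | (x, .c i j) => node γ n (x, j) (if s then i + 1 else i)

def subGeo (γ : Geo G X) (n : X × U → ℕ) (p : X × U → ℕ → G) (hn : Measurable n)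
    (hp : ∀ k, Measurable fun e => p e k) : Geo G X where
  i0 := U.c 0 γ.i0
  pt := subPt γ p
  en := subEn γ n
  pt_meas := by
    refine measurable_from_prod_countable_left fun j => ?_
    rcases j with _ | ⟨_ | k, j⟩ <;> simp only [subPt] <;> fun_prop
  en_meas s := by
    refine measurable_from_prod_countable_left fun j => ?_
    rcases j with _ | ⟨i, j⟩ <;> simp only [subEn, node]
    · fun_prop
    · refine Measurable.ite (MeasurableSet.const _) (by fun_prop) ?_
      exact Measurable.ite (measurableSet_lt (by fun_prop) (by fun_prop)) (by fun_prop)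
        (by fun_prop)
  pt_orb v := by
    rcases v with ⟨x, _ | ⟨_ | k, j⟩⟩
    · exact Orb.refl _ _
    · exact γ.pt_orb (x, j)
    · exact ((γ.en_orb false (x, j)).trans (γ.pt_orb _)).trans (Orb.smul _ _)
  en_orb s e := by
    rcases e with ⟨x, _ | ⟨i, j⟩⟩
    · exact Orb.refl _ _
    · simp only [subEn, node]
      generalize (if s then i + 1 else i) = k
      split_ifs
      · exact γ.en_orb false (x, j)
      · exact Orb.refl _ _
      · exact γ.en_orb true (x, j)
  pt_main := γ.pt_main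

variable {μ : Measure X} [IsProbabilityMeasure μ] [SMulInvariantMeasure G X μ]

theorem subdiv_core (σ : St G μ) {Es : Set (X × U)} (mEs : MeasurableSet Es) (sEs : Es ⊆ σ.E)
    (hfin : nu μ U σ.E ≠ ⊤) (L : Set G) (n : X × U → ℕ) (p : X × U → ℕ → G) (hn : Measurable n)
    (hp : ∀ k, Measurable fun e => p e k) (N : ℕ) (hnN : ∀ e, n e ≤ N) (hn1 : ∀ e, 1 ≤ n e)
    (p0 : ∀ e, p e 0 = 1)
    (pn : ∀ e ∈ Es, σ.pt (σ.en true e) = p e (n e) • σ.pt (σ.en false e))
    (pL : ∀ e ∈ Es, ∀ k < n e, p e (k + 1) * (p e k)⁻¹ ∈ L) {d : ℝ≥0∞}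
    (hbud : nu μ U σ.E ≤ nu μ U σ.W + d) :
    ∃ (σ' : St G μ) (E' : Set (X × U)), MeasurableSet E' ∧ E' ⊆ σ'.E ∧
      (∀ e ∈ E', ∃ g ∈ L, σ'.pt (σ'.en true e) = g • σ'.pt (σ'.en false e)) ∧
      nu μ U σ'.E ≤ nu μ U σ'.W + d ∧
      ∀ (K : Subgroup G) x y, σ.Conn Es K (x, σ.i0) (y, σ.i0) →
        σ'.Conn E' K (x, σ'.i0) (y, σ'.i0) := by
  let γ := subGeo σ.toGeo n p hn hp
  let cut : Set (X × U) → ℕ → Set (X × U) := fun D i => {e | e ∈ D ∧ i < n e}
  have mcut : ∀ D, MeasurableSet D → ∀ i, MeasurableSet (cut D i) := fun D hD i =>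
    hD.inter (measurableSet_lt measurable_const hn)
  let ET : Set (X × U) → Set (X × U) := fun D => ⋃ i, lay i (cut D i)
  have mET : ∀ D, MeasurableSet D → MeasurableSet (ET D) := fun D hD =>
    MeasurableSet.iUnion fun i => meas_lay (mcut D hD i)
  let Wk : ℕ → Set (X × U) := fun k => match k with
    | 0 => σ.W
    | k + 1 => cut σ.E (k + 1)
  have mWk : ∀ k, MeasurableSet (Wk k) := fun k => match k with
    | 0 => σ.W_meas
    | k + 1 => mcut _ σ.E_meas _
  have path : ∀ D (K : Subgroup G), ∀ e ∈ D, ∀ k ≤ n e,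
      γ.Conn (ET D) K (node σ.toGeo n e 0) (node σ.toGeo n e k) := by
    intro D K e he k
    induction k with
    | zero => exact fun _ => Geo.Conn.refl
    | succ k ih =>
      intro hk
      refine (ih (by omega)).trans ?_
      exact Geo.Conn.edge (γ := γ) (e := (e.1, .c k e.2))
        (E := ET D) (mem_iUnion.mpr ⟨k, mem_lay.mpr
          ⟨rfl, (⟨he, by show k < n e; omega⟩ : (e.1, e.2) ∈ cut D k)⟩⟩) false true
  have node0 : ∀ e, node σ.toGeo n e 0 = old (σ.en false e) := fun e => by simp [node]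
  have noden : ∀ e, node σ.toGeo n e (n e) = old (σ.en true e) := fun e => by
    have := hn1 e
    simp only [node, lt_irrefl, if_false]
    rw [if_neg (by omega)]
  have lift : ∀ D (K : Subgroup G) u v, σ.Conn D K u v → γ.Conn (ET D) K (old u) (old v) := by
    intro D K u v h
    refine Geo.Conn.lift (γ := σ.toGeo) (r := γ.Conn (ET D) K) (fun _ => Geo.Conn.refl)
      (fun _ _ => Geo.Conn.symm) (fun _ _ _ => Geo.Conn.trans) old (fun e he => ?_)
      (fun _ _ h => Geo.Conn.free (γ := γ) h) h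
    rw [← node0, ← noden]
    exact path D K e he _ le_rfl
  have oldV : ∀ v, σ.Valid v → old v ∈ (⋃ k, lay k (Wk k)) ∨ (old v).2 = γ.i0 := by
    rintro v (h | h)
    · exact Or.inl (mem_iUnion.mpr ⟨0, mem_lay.mpr ⟨rfl, h⟩⟩)
    · exact Or.inr (by simp only [old, h]; rfl)
  have hsum : ∑' k, nu μ U (cut σ.E (k + 1)) ≠ ⊤ := by
    rw [tsum_eq_sum (s := Finset.range N)]
    · exact ENNReal.sum_ne_top.mpr fun k _ =>
        ne_top_of_le_ne_top hfin (measure_mono fun e he => he.1)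
    · intro k hk
      have : cut σ.E (k + 1) = ∅ := by
        rw [eq_empty_iff_forall_notMem]
        intro e he
        have h1 := hnN e
        have h2 : k + 1 < n e := he.2
        simp at hk
        omega
      rw [this, measure_empty]
  have hW : nu μ U (⋃ k, lay k (Wk k)) = nu μ U σ.W + ∑' k, nu μ U (cut σ.E (k + 1)) := by
    rw [nu_iUnion_lay μ mWk, tsum_eq_zero_add' ENNReal.summable]
  have hE : nu μ U (ET σ.E) = nu μ U σ.E + ∑' k, nu μ U (cut σ.E (k + 1)) := by
    rw [nu_iUnion_lay μ (mcut _ σ.E_meas), tsum_eq_zero_add' ENNReal.summable]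
    congr 2
    ext e
    exact ⟨fun h => h.1, fun h => ⟨h, hn1 e⟩⟩
  have oldconn : ∀ v, σ.Valid v → ∃ y, γ.Conn (ET σ.E) ⊤ (old v) (y, γ.i0) := by
    rintro v (h | h)
    · obtain ⟨y, hy⟩ := σ.conn v h
      exact ⟨y, lift _ _ _ _ hy⟩
    · exact ⟨v.1, by simp only [old, h]; exact Geo.Conn.refl⟩
  let σ' : St G μ :=
    { toGeo := γ
      W := ⋃ k, lay k (Wk k)
      E := ET σ.E
      W_meas := MeasurableSet.iUnion fun k => meas_lay (mWk k)
      E_meas := mET _ σ.E_meas
      W_main := by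
        intro x hx
        obtain ⟨k, hk⟩ := mem_iUnion.mp hx
        obtain ⟨rfl, h⟩ := mem_lay.mp hk
        exact σ.W_main x h
      W_fin := by rw [hW]; exact ENNReal.add_ne_top.mpr ⟨σ.W_fin, hsum⟩
      en_valid := by
        intro e he s
        obtain ⟨i, hi⟩ := mem_iUnion.mp he
        obtain ⟨x, j, rfl, h⟩ := lay_cases hi
        show node σ.toGeo n (x, j) _ ∈ _ ∨ (node σ.toGeo n (x, j) _).2 = _
        generalize (if s then i + 1 else i) = k
        unfold node
        split_ifs with h1 h2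
        · exact oldV _ (σ.en_valid _ h.1 _)
        · obtain ⟨k, rfl⟩ := Nat.exists_eq_succ_of_ne_zero h1
          exact Or.inl (mem_iUnion.mpr ⟨k + 1, mem_lay.mpr ⟨rfl, h.1, h2⟩⟩)
        · exact oldV _ (σ.en_valid _ h.1 _)
      conn := by
        intro w hw
        obtain ⟨k, hk⟩ := mem_iUnion.mp hw
        obtain ⟨x, j, rfl, h⟩ := lay_cases hk
        cases k with
        | zero => exact oldconn (x, j) (Or.inl h)
        | succ k =>
          obtain ⟨y, hy⟩ := oldconn _ (σ.en_valid _ h.1 false)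
          refine ⟨y, Geo.Conn.trans ?_ hy⟩
          have := path σ.E ⊤ (x, j) h.1 (k + 1) (le_of_lt h.2)
          rw [node0] at this
          have h2 : k + 1 < n (x, j) := h.2
          simpa [node, h2] using this.symm }
  refine ⟨σ', ET Es, mET _ mEs, ?_, ?_, ?_, fun K x y h => lift _ _ _ _ h⟩
  · intro e he
    obtain ⟨i, hi⟩ := mem_iUnion.mp he
    obtain ⟨x, j, rfl, h⟩ := lay_cases hi
    exact mem_iUnion.mpr ⟨i, mem_lay.mpr ⟨rfl, sEs h.1, h.2⟩⟩
  · intro e he
    obtain ⟨i, hi⟩ := mem_iUnion.mp he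
    obtain ⟨x, j, rfl, h⟩ := lay_cases hi
    have key : ∀ k ≤ n (x, j), γ.pt (node σ.toGeo n (x, j) k) =
        p (x, j) k • σ.pt (σ.en false (x, j)) := by
      intro k hk
      unfold node
      split_ifs with h1 h2
      · rw [h1, p0, one_smul]; rfl
      · obtain ⟨k, rfl⟩ := Nat.exists_eq_succ_of_ne_zero h1
        rfl
      · obtain rfl : k = n (x, j) := by omega
        rw [← pn _ h.1]; rfl
    have h2 : i < n (x, j) := h.2
    refine ⟨_, pL _ h.1 i h2, ?_⟩
    show γ.pt (node σ.toGeo n (x, j) (i + 1)) = _ • γ.pt (node σ.toGeo n (x, j) i)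
    rw [key _ h2, key _ h2.le, mul_smul, inv_smul_smul]
  · show nu μ U (ET σ.E) ≤ nu μ U (⋃ k, lay k (Wk k)) + d
    rw [hE, hW, add_right_comm]
    gcongr

/-- Subdividing edges into letters of `L`. -/
theorem subdiv (L : Set G) (hsym : ∀ g ∈ L, g⁻¹ ∈ L) (h1 : (1 : G) ∈ L) (K : Subgroup G) (b : G)
    {d c : ℝ≥0∞} (hd : d ≠ ⊤)
    (H : ∀ (σ' : St G μ) (E' : Set (X × U)), MeasurableSet E' → E' ⊆ σ'.E →
      (∀ e ∈ E', ∃ g ∈ L, σ'.pt (σ'.en true e) = g • σ'.pt (σ'.en false e)) →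
      nu μ U σ'.E ≤ nu μ U σ'.W + d → μ {x | σ'.Conn E' K (x, σ'.i0) (b • x, σ'.i0)} ≤ c)
    (σ : St G μ) {E1 : Set (X × U)} (m1 : MeasurableSet E1) (s1 : E1 ⊆ σ.E)
    (l1 : ∀ e ∈ E1, Orb (Subgroup.closure L) (σ.pt (σ.en false e)) (σ.pt (σ.en true e)))
    (hbud : nu μ U σ.E ≤ nu μ U σ.W + d) :
    μ {x | σ.Conn E1 K (x, σ.i0) (b • x, σ.i0)} ≤ c := by
  classical
  choose len pp a1 a2 a3 a4 using exists_word L hsym h1
  obtain ⟨lab, mlab, hlab⟩ := σ.toGeo.exists_lab
  have mlen : Measurable fun e => len (lab e) := Measurable.of_discrete.comp mlab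
  let Es : ℕ → Set (X × U) := fun N => {e | e ∈ E1 ∧ len (lab e) ≤ N}
  have mEs : ∀ N, MeasurableSet (Es N) := fun N => m1.inter (measurableSet_le mlen measurable_const)
  have hmono : Monotone Es := fun N M h e he => ⟨he.1, he.2.trans h⟩
  have hU : E1 = ⋃ N, Es N := by
    ext e
    simp only [mem_iUnion]
    exact ⟨fun h => ⟨_, h, le_rfl⟩, fun ⟨_, h⟩ => h.1⟩
  have hfin : nu μ U σ.E ≠ ⊤ := ne_top_of_le_ne_top (ENNReal.add_ne_top.mpr ⟨σ.W_fin, hd⟩) hbud
  have hsub : {x | σ.Conn E1 K (x, σ.i0) (b • x, σ.i0)} ⊆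
      ⋃ N, {x | σ.Conn (Es N) K (x, σ.i0) (b • x, σ.i0)} := by
    intro x hx
    rw [hU] at hx
    exact mem_iUnion.mpr (Geo.conn_iUnion hmono hx)
  refine (measure_mono hsub).trans ?_
  have hm : Monotone fun N => {x | σ.Conn (Es N) K (x, σ.i0) (b • x, σ.i0)} :=
    fun N M h x hx => Geo.Conn.mono (hmono h) le_rfl hx
  rw [hm.measure_iUnion]
  refine iSup_le fun N => ?_
  obtain ⟨σ', E', b1, b2, b3, b4, b5⟩ := subdiv_core σ (mEs N) (fun e he => s1 he.1) hfin L
    (fun e => if e ∈ Es N then len (lab e) else 1) (fun e k => pp (lab e) k)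
    (Measurable.ite (mEs N) mlen measurable_const)
    (fun k => (Measurable.of_discrete (f := fun g => pp g k)).comp mlab) (N + 1)
    (fun e => by
      split_ifs with h
      · exact h.2.trans (Nat.le_succ _)
      · omega)
    (fun e => by
      split_ifs with h
      · exact a1 _
      · exact le_rfl)
    (fun e => a2 _) (fun e he => by rw [if_pos he, a3]; exact hlab e)
    (fun e he k hk => by
      rw [if_pos he] at hk
      refine a4 _ ?_ k hk
      obtain ⟨g, hg, h⟩ := l1 e he.1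
      rwa [IsCancelSMul.right_cancel _ _ _ ((hlab e).symm.trans h)]) hbud
  exact (measure_mono fun x hx => b5 K _ _ hx).trans (H σ' E' b1 b2 b3 b4)

end Crest.Agent.H0291
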